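import Vale.Agent.P154.Lattice.Dominate

/-!
# The endgame criterion

The Lyapunov inequality is needed only for families obeying the bounds that a dominating finite
experiment gives from some depth on.
-/

noncomputable section

namespace Vale.P154

open Finset Filter Topology
open scoped ENNReal

variable {q : ℕ}

/-- Nonreconstruction from a Lyapunov inequality for the probability families on the simplex that
satisfy bounds known to hold from some depth on. -/
theorem aGW_zero_of_ev_late (hq : 2 ≤ q) {lam : ℝ} (h0 : -1 / ((q : ℝ) - 1) ≤ lam) (h1 : lam ≤ 1)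
    {p : ℕ → ℝ} (hp : ∀ k, 0 ≤ p k) (hp1 : ∑' k, ENNReal.ofReal (p k) = 1)
    {m : ℕ} (c : Fin m → ℝ) (a : Fin m → Fin q → ℝ) (ha : ∀ j, Expo (a j)) {η : ℝ} (hη : 0 < η)
    {r : ℕ} (N : ℕ) (f : Fin r → (Fin q → ℝ) → ℝ) (θ : Fin r → ℝ)
    (hf : ∀ j y, Simp y → 0 ≤ f j y)
    (hlate : ∀ n, N ≤ n → ∀ j,
      θ j ≤ (gwE p n fun t => ENNReal.ofReal (ev (lik (q := q) lam n t) (f j))).toReal)
    (cert : ∀ (ι : Type) (w : ι → ℝ) (y : ι → Fin q → ℝ), (∀ x, 0 ≤ w x) → Summable w →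
      ∑' x, w x = 1 → (∀ x, Simp (y x)) → (∀ j, θ j ≤ ∑' x, w x * f j (y x)) →
      ∑ j, c j * (1 - ∑' k, p k * (∑' x, w x * hel (a j) (fun i => lam * y x i)) ^ k)
          + η * (∑' x, w x * chi (y x)) ^ 2
        ≤ ∑ j, c j * (1 - ∑' x, w x * hel (a j) (y x))) :
    Tendsto (fun n => aGW q p lam n) atTop (𝓝 0) := by
  have : NeZero q := ⟨by omega⟩
  refine aGW_tendsto_zero hq h0 h1 hp hp1 ?_
  set g : Fin m → ℕ → ℝ := fun j n => ∑' x : Idx q n, wIdx q lam p n x * hel (a j) (yIdx lam n x)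
  set X : ℕ → ℝ := fun n => ∑' x : Idx q n, wIdx q lam p n x * chi (yIdx lam n x)
  set F : ℕ → ℝ := fun n => ∑ j, c j * (1 - g j n)
  have hy : ∀ n (x : Idx q n), Simp (yIdx lam n x) := fun n x =>
    relOr_simp (lik_nonneg hq h0 h1 n x.1 x.2)
  have hhel : ∀ j y, Simp y → 0 ≤ hel (a j) y := fun j y hy =>
    hvec_nonneg _ fun i => by linarith [hy.1 i]
  have hg : ∀ j n, 0 ≤ g j n ∧ g j n ≤ 1 := by
    intro j n
    obtain ⟨hs, h1'⟩ := wIdx_tsum hq h0 h1 hp hp1 n
    have hle : ∀ x, wIdx q lam p n x * hel (a j) (yIdx lam n x) ≤ wIdx q lam p n x := fun x =>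
      mul_le_of_le_one_right (wIdx_nonneg hq h0 h1 hp n x) (hel_le_one (ha j) (hy n x))
    have hnn : ∀ x, 0 ≤ wIdx q lam p n x * hel (a j) (yIdx lam n x) := fun x =>
      mul_nonneg (wIdx_nonneg hq h0 h1 hp n x) (hhel j _ (hy n x))
    refine ⟨tsum_nonneg hnn, ?_⟩
    rw [← h1']
    exact (Summable.of_nonneg_of_le hnn hle hs).tsum_le_tsum hle hs
  have hrec : ∀ j n, g j (n + 1) =
      ∑' k, p k * (∑' x, wIdx q lam p n x * hel (a j) (fun i => lam * yIdx lam n x i)) ^ k := by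
    intro j n
    have h := congrArg ENNReal.toReal (gwE_hTree_succ hq h0 h1 (a j) hp n)
    simp only [hTree_eq_ev hq h0 h1 (ha j), hChan_eq_ev hq h0 h1 (ha j)] at h
    rw [gwE_ev_toReal hq h0 h1 hp (n + 1) (hhel j), ENNReal.tsum_toReal_eq] at h
    · refine h.trans (tsum_congr fun k => ?_)
      rw [ENNReal.toReal_mul, ENNReal.toReal_pow, ENNReal.toReal_ofReal (hp k),
        gwE_ev_toReal hq h0 h1 hp n fun y hy => hhel j _ (lam_smul_simp hq h0 h1 hy)]
    · intro k
      refine ENNReal.mul_ne_top ENNReal.ofReal_ne_top (ENNReal.pow_ne_top ?_)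
      refine ne_top_of_le_ne_top ENNReal.one_ne_top ?_
      rw [← gwE_one hp hp1 n]
      refine ENNReal.tsum_le_tsum fun t => mul_le_mul_right (ENNReal.ofReal_le_one.2 ?_) _
      calc ev (lik (q := q) lam n t) (fun y => hel (a j) fun i => lam * y i)
          ≤ ev (lik (q := q) lam n t) (fun _ => 1) := by
            refine Finset.sum_le_sum fun s _ => ?_
            obtain ⟨hm, hs⟩ := mass_simp _ (lik_nonneg hq h0 h1 n t) s
            by_cases h : (∑ i, lik lam n t s i) / (q : ℝ) = 0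
            · simp [h]
            · exact mul_le_mul_of_nonneg_left
                (hel_le_one (ha j) (lam_smul_simp hq h0 h1 (hs h))) hm
        _ = 1 := ev_one _ (sum_mass lam n t)
  have step : ∀ n, N ≤ n → F (n + 1) + η * X n ^ 2 ≤ F n := by
    intro n hn
    obtain ⟨hs, h1'⟩ := wIdx_tsum hq h0 h1 hp hp1 n
    have hθ : ∀ j, θ j ≤ ∑' x, wIdx q lam p n x * f j (yIdx lam n x) := fun j => by
      have h := hlate n hn j
      rwa [gwE_ev_toReal hq h0 h1 hp n (hf j)] at h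
    have := cert (Idx q n) _ (yIdx lam n) (wIdx_nonneg hq h0 h1 hp n) hs h1' (hy n) hθ
    simpa only [F, hrec, X] using this
  set B := ∑ j, |c j|
  have hF : ∀ n, |F n| ≤ B := fun n => by
    refine (Finset.abs_sum_le_sum_abs _ _).trans (Finset.sum_le_sum fun j _ => ?_)
    rw [abs_mul]
    refine mul_le_of_le_one_right (abs_nonneg _) ?_
    rw [abs_of_nonneg (by linarith [(hg j n).2])]
    linarith [(hg j n).1]
  have hsum : Summable fun n => η * X (n + N) ^ 2 := by
    refine summable_of_sum_range_le (c := 2 * B) (fun n => by positivity) fun M => ?_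
    have : ∀ M, ∑ n ∈ Finset.range M, η * X (n + N) ^ 2 ≤ F N - F (M + N) := by
      intro M
      induction M with
      | zero => simp
      | succ M ih =>
        rw [Finset.sum_range_succ, Nat.succ_add]
        linarith [step (M + N) (Nat.le_add_left N M)]
    linarith [this M, le_abs_self (F N), neg_abs_le (F (M + N)), hF N, hF (M + N)]
  have hX : Tendsto X atTop (𝓝 0) := by
    refine (tendsto_add_atTop_iff_nat N).1 ?_
    have h2 : Tendsto (fun n => Real.sqrt (η * X (n + N) ^ 2 / η)) atTop (𝓝 0) := by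
      simpa using (hsum.tendsto_atTop_zero.div_const η).sqrt
    refine h2.congr fun n => ?_
    rw [mul_div_cancel_left₀ _ hη.ne', Real.sqrt_sq (tsum_nonneg fun x =>
      mul_nonneg (wIdx_nonneg hq h0 h1 hp (n + N) x) (by unfold chi; positivity))]
  have hne : ∀ n, gwE p n (fun t => ENNReal.ofReal (xTree q lam n t)) ≠ ∞ := by
    intro n
    refine ne_top_of_le_ne_top (ENNReal.ofReal_ne_top (r := (q : ℝ) ^ 2)) ?_
    calc gwE p n (fun t => ENNReal.ofReal (xTree q lam n t))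
        ≤ ∑' t, ENNReal.ofReal (gwWeight p n t) * ENNReal.ofReal ((q : ℝ) ^ 2) := by
          refine ENNReal.tsum_le_tsum fun t => mul_le_mul_right (ENNReal.ofReal_le_ofReal ?_) _
          calc xTree q lam n t ≤ ev (lik (q := q) lam n t) (fun _ => (q : ℝ) ^ 2) := by
                refine Finset.sum_le_sum fun s _ => ?_
                obtain ⟨hm, hs⟩ := mass_simp _ (lik_nonneg hq h0 h1 n t) s
                by_cases h : (∑ i, lik lam n t s i) / (q : ℝ) = 0
                · simp [h]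
                · refine mul_le_mul_of_nonneg_left ?_ hm
                  exact chi_le_sq hq (hs h)
            _ = _ := by rw [ev_const, sum_mass, one_mul]
      _ = _ := by
          rw [ENNReal.tsum_mul_right]
          have h1' := gwE_one hp hp1 n
          simp only [gwE, mul_one] at h1'
          rw [h1', one_mul]
  rw [← ENNReal.tendsto_toReal_iff hne ENNReal.zero_ne_top]
  refine hX.congr fun n => ?_
  exact (gwE_ev_toReal hq h0 h1 hp n (f := chi) fun y _ => by unfold chi; positivity).symm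

/-- The same with the late bounds stated for `hTree`. -/
theorem aGW_zero_of_hel_late (hq : 2 ≤ q) {lam : ℝ} (h0 : -1 / ((q : ℝ) - 1) ≤ lam) (h1 : lam ≤ 1)
    {p : ℕ → ℝ} (hp : ∀ k, 0 ≤ p k) (hp1 : ∑' k, ENNReal.ofReal (p k) = 1)
    {m : ℕ} (c : Fin m → ℝ) (a : Fin m → Fin q → ℝ) (ha : ∀ j, Expo (a j)) {η : ℝ} (hη : 0 < η)
    {r : ℕ} (N : ℕ) (b : Fin r → Fin q → ℝ) (θ : Fin r → ℝ) (hb : ∀ j, Expo (b j))
    (hlate : ∀ n, N ≤ n → ∀ j,
      θ j ≤ (gwE p n fun t => ENNReal.ofReal (hTree (b j) lam n t)).toReal)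
    (cert : ∀ (ι : Type) (w : ι → ℝ) (y : ι → Fin q → ℝ), (∀ x, 0 ≤ w x) → Summable w →
      ∑' x, w x = 1 → (∀ x, Simp (y x)) → (∀ j, θ j ≤ ∑' x, w x * hel (b j) (y x)) →
      ∑ j, c j * (1 - ∑' k, p k * (∑' x, w x * hel (a j) (fun i => lam * y x i)) ^ k)
          + η * (∑' x, w x * chi (y x)) ^ 2
        ≤ ∑ j, c j * (1 - ∑' x, w x * hel (a j) (y x))) :
    Tendsto (fun n => aGW q p lam n) atTop (𝓝 0) :=
  aGW_zero_of_ev_late hq h0 h1 hp hp1 c a ha hη N (fun j => hel (b j)) θ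
    (fun _ _ hy => hvec_nonneg _ fun i => by linarith [hy.1 i])
    (fun n hn j => by simpa only [hTree_eq_ev hq h0 h1 (hb j)] using hlate n hn j) cert

/-- Regular trees: the inequality for families obeying bounds that hold from some depth on gives
nonreconstruction. -/
theorem aReg_zero_of_ev_late (hq : 2 ≤ q) {lam : ℝ} (h0 : -1 / ((q : ℝ) - 1) ≤ lam) (h1 : lam ≤ 1)
    (d : ℕ) {m : ℕ} (c : Fin m → ℝ) (a : Fin m → Fin q → ℝ) (ha : ∀ j, Expo (a j)) {η : ℝ}
    (hη : 0 < η) {r : ℕ} (N : ℕ) (f : Fin r → (Fin q → ℝ) → ℝ) (θ : Fin r → ℝ)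
    (hf : ∀ j y, Simp y → 0 ≤ f j y)
    (hlate : ∀ n, N ≤ n → ∀ j, θ j ≤ ev (lik (q := q) lam n (regTree d n)) (f j))
    (cert : ∀ (ι : Type) (w : ι → ℝ) (y : ι → Fin q → ℝ), (∀ x, 0 ≤ w x) → Summable w →
      ∑' x, w x = 1 → (∀ x, Simp (y x)) → (∀ j, θ j ≤ ∑' x, w x * f j (y x)) →
      ∑ j, c j * (1 - (∑' x, w x * hel (a j) (fun i => lam * y x i)) ^ d)
          + η * (∑' x, w x * chi (y x)) ^ 2
        ≤ ∑ j, c j * (1 - ∑' x, w x * hel (a j) (y x))) :
    Tendsto (fun n => aReg q d lam n) atTop (𝓝 0) := by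
  have : NeZero q := ⟨by omega⟩
  simp only [← aGW_dirac]
  refine aGW_zero_of_ev_late hq h0 h1 (dirac_nonneg d) (tsum_dirac_one d) c a ha hη N f θ hf
    (fun n hn j => le_trans (hlate n hn j) (le_of_eq ?_)) fun ι w y hw hs h1' hy hθ => ?_
  · have e : gwE (dirac d) n
        (fun t => ENNReal.ofReal (ev (lik (q := q) lam n t) (f j))) =
        ENNReal.ofReal (ev (lik (q := q) lam n (regTree d n)) (f j)) := by
      unfold gwE
      rw [tsum_eq_single (regTree d n) fun t ht => by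
        have : gwWeight (dirac d) n t = 0 := by_contra fun hne => ht (gwWeight_dirac d n t hne)
        simp [this]]
      simp [gwWeight_dirac_self]
    rw [e, ENNReal.toReal_ofReal]
    refine Finset.sum_nonneg fun s _ => ?_
    obtain ⟨hm, hs⟩ := mass_simp _ (lik_nonneg hq h0 h1 n (regTree d n)) s
    by_cases h : (∑ i, lik lam n (regTree d n) s i) / (q : ℝ) = 0
    · simp [h]
    · exact mul_nonneg hm (hf j _ (hs h))
  · simpa only [tsum_dirac] using cert ι w y hw hs h1' hy hθ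

/-- Regular trees: a dominating experiment at depth `N` and the restricted inequality give
nonreconstruction. -/
theorem aReg_zero_of_dominated (hq : 2 ≤ q) {lam : ℝ} (h0 : -1 / ((q : ℝ) - 1) ≤ lam) (h1 : lam ≤ 1)
    {d N : ℕ} {S : Type} [Fintype S] {M : S → Fin q → ℝ}
    (hdom : Garb (lik (q := q) lam N (regTree d N)) M) (hM : ∀ s i, 0 ≤ M s i)
    {m : ℕ} (c : Fin m → ℝ) (a : Fin m → Fin q → ℝ) (ha : ∀ j, Expo (a j)) {η : ℝ} (hη : 0 < η)
    {r : ℕ} (b : Fin r → Fin q → ℝ) (hb : ∀ j, Expo (b j))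
    (cert : ∀ (ι : Type) (w : ι → ℝ) (y : ι → Fin q → ℝ), (∀ x, 0 ≤ w x) → Summable w →
      ∑' x, w x = 1 → (∀ x, Simp (y x)) →
      (∀ j, ∑ s, hvec (b j) (M s) ≤ ∑' x, w x * hel (b j) (y x)) →
      ∑ j, c j * (1 - (∑' x, w x * hel (a j) (fun i => lam * y x i)) ^ d)
          + η * (∑' x, w x * chi (y x)) ^ 2
        ≤ ∑ j, c j * (1 - ∑' x, w x * hel (a j) (y x))) :
    Tendsto (fun n => aReg q d lam n) atTop (𝓝 0) :=
  aReg_zero_of_ev_late hq h0 h1 d c a ha hη N (fun j => hel (b j))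
    (fun j => ∑ s, hvec (b j) (M s)) (fun _ _ hy => hvec_nonneg _ fun i => by linarith [hy.1 i])
    (fun n hn j => by
      simpa only [hTree_eq_ev hq h0 h1 (hb j)] using
        hTree_ge_of_dominated hq h0 h1 hn hdom hM (hb j)) cert

end Vale.P154
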