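import Vale.Agent.P154.Lattice.Dominate

/-!
# The limit of the affinities on regular trees

The affinities `hChan` increase with the depth. Every linear inequality that holds pointwise on
the simplex passes to their limits, where `hTree` becomes the `d`-th power of `hChan`.
-/

noncomputable section

namespace Vale.P154

open Finset Filter Topology

variable {q : ℕ}

/-- The limit of `hChan` on the `d`-ary tree. -/
def hLim (a : Fin q → ℝ) (lam : ℝ) (d : ℕ) : ℝ := ⨆ n, hChan a lam n (regTree d n)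

theorem hChan_mono (hq : 2 ≤ q) {lam : ℝ} (h0 : -1 / ((q : ℝ) - 1) ≤ lam) (h1 : lam ≤ 1)
    {a : Fin q → ℝ} (ha : Expo a) (d : ℕ) :
    Monotone fun n : ℕ => hChan a lam n (regTree d n) := fun m _ h =>
  ((garb_regTree_le hq h0 h1 d h).channel (potts q lam)).hvec_le
    (fun s i => chan_nonneg hq h0 h1 (lik_nonneg hq h0 h1 m _ s) i) ha

theorem hChan_nonneg_le_one (hq : 2 ≤ q) {lam : ℝ} (h0 : -1 / ((q : ℝ) - 1) ≤ lam) (h1 : lam ≤ 1)
    {a : Fin q → ℝ} (ha : Expo a) (n : ℕ) (t : PTree n) :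
    0 ≤ hChan a lam n t ∧ hChan a lam n t ≤ 1 := by
  have : NeZero q := ⟨by omega⟩
  refine ⟨Finset.sum_nonneg fun s _ => hvec_nonneg _ fun i =>
    chan_nonneg hq h0 h1 (lik_nonneg hq h0 h1 n t s) i, ?_⟩
  rw [hChan_eq_ev hq h0 h1 ha, ← ev_one (lik (q := q) lam n t) (sum_mass lam n t)]
  refine Finset.sum_le_sum fun s _ => ?_
  obtain ⟨hm, hs⟩ := mass_simp _ (lik_nonneg hq h0 h1 n t) s
  by_cases h : (∑ i, lik lam n t s i) / (q : ℝ) = 0
  · simp [h]
  · exact mul_le_mul_of_nonneg_left (hel_le_one ha (lam_smul_simp hq h0 h1 (hs h))) hm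

theorem tendsto_hChan (hq : 2 ≤ q) {lam : ℝ} (h0 : -1 / ((q : ℝ) - 1) ≤ lam) (h1 : lam ≤ 1)
    {a : Fin q → ℝ} (ha : Expo a) (d : ℕ) :
    Tendsto (fun n => hChan a lam n (regTree d n)) atTop (𝓝 (hLim a lam d)) :=
  tendsto_atTop_ciSup (hChan_mono hq h0 h1 ha d)
    ⟨1, fun _ ⟨n, hn⟩ => hn ▸ (hChan_nonneg_le_one hq h0 h1 ha n _).2⟩

theorem hLim_mem (hq : 2 ≤ q) {lam : ℝ} (h0 : -1 / ((q : ℝ) - 1) ≤ lam) (h1 : lam ≤ 1)
    {a : Fin q → ℝ} (ha : Expo a) (d : ℕ) : 0 ≤ hLim a lam d ∧ hLim a lam d ≤ 1 :=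
  ⟨ge_of_tendsto' (tendsto_hChan hq h0 h1 ha d) fun n => (hChan_nonneg_le_one hq h0 h1 ha n _).1,
    le_of_tendsto' (tendsto_hChan hq h0 h1 ha d) fun n => (hChan_nonneg_le_one hq h0 h1 ha n _).2⟩

theorem hChan_eventually_ge (hq : 2 ≤ q) {lam : ℝ} (h0 : -1 / ((q : ℝ) - 1) ≤ lam) (h1 : lam ≤ 1)
    {a : Fin q → ℝ} (ha : Expo a) (d : ℕ) {θ : ℝ} (hθ : θ < hLim a lam d) :
    ∃ n0, ∀ n, n0 ≤ n → θ ≤ hChan a lam n (regTree d n) :=
  eventually_atTop.1 <| ((tendsto_hChan hq h0 h1 ha d).eventually (lt_mem_nhds hθ)).mono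
    fun _ h => h.le

/-- A pointwise linear inequality passes to the limits. -/
theorem hLim_linear (hq : 2 ≤ q) {lam : ℝ} (h0 : -1 / ((q : ℝ) - 1) ≤ lam) (h1 : lam ≤ 1) (d : ℕ)
    {m : ℕ} {a : Fin m → Fin q → ℝ} (ha : ∀ j, Expo (a j)) (c e : Fin m → ℝ) {K : ℝ}
    (h : ∀ y, Simp y → ∑ j, (c j * hel (a j) y + e j * hel (a j) fun i => lam * y i) ≤ K) :
    ∑ j, (c j * hLim (a j) lam d ^ d + e j * hLim (a j) lam d) ≤ K := by
  have : NeZero q := ⟨by omega⟩
  have key : ∀ n, ∑ j, (c j * hTree (a j) lam n (regTree d n)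
      + e j * hChan (a j) lam n (regTree d n)) ≤ K := by
    intro n
    set L := lik (q := q) lam n (regTree d n) with hL
    have e1 : ∑ j, (c j * hTree (a j) lam n (regTree d n)
        + e j * hChan (a j) lam n (regTree d n)) = ev L fun y =>
          ∑ j, (c j * hel (a j) y + e j * hel (a j) fun i => lam * y i) := by
      simp only [hTree_eq_ev hq h0 h1 (ha _), hChan_eq_ev hq h0 h1 (ha _), ev, ← hL, Finset.mul_sum]
      rw [Finset.sum_comm (γ := Cfg q n (regTree d n))]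
      refine Finset.sum_congr rfl fun j _ => ?_
      rw [← Finset.sum_add_distrib]
      exact Finset.sum_congr rfl fun s _ => by ring
    calc _ = _ := e1
      _ ≤ ev L fun _ => K := by
          refine Finset.sum_le_sum fun s _ => ?_
          obtain ⟨hm, hs⟩ := mass_simp _ (lik_nonneg hq h0 h1 n (regTree d n)) s
          by_cases h' : (∑ i, L s i) / (q : ℝ) = 0
          · simp [h']
          · exact mul_le_mul_of_nonneg_left (h _ (hs h')) hm
      _ = K := by rw [ev_const, sum_mass, one_mul]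
  have hT : ∀ j n, hTree (a j) lam (n + 1) (regTree d (n + 1)) =
      hChan (a j) lam n (regTree d n) ^ d := fun j n => by
    show hTree (a j) lam (n + 1) ⟨d, fun _ => regTree d n⟩ = _
    rw [hTree_succ hq h0 h1, Finset.prod_const, Finset.card_univ, Fintype.card_fin]
  have hlim : Tendsto (fun n => ∑ j, (c j * hTree (a j) lam (n + 1) (regTree d (n + 1))
      + e j * hChan (a j) lam (n + 1) (regTree d (n + 1)))) atTop
      (𝓝 (∑ j, (c j * hLim (a j) lam d ^ d + e j * hLim (a j) lam d))) := by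
    refine tendsto_finsetSum _ fun j _ => ?_
    simp only [hT]
    exact (((tendsto_hChan hq h0 h1 (ha j) d).pow d).const_mul (c j)).add
      (((tendsto_hChan hq h0 h1 (ha j) d).comp (tendsto_add_atTop_nat 1)).const_mul (e j))
  exact le_of_tendsto' hlim fun n => key (n + 1)

end Vale.P154
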