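/-!
# The checker for one generation on the lattice

All of this is computed by the kernel on natural numbers.  A class is a sector point `(A, B)`,
`K ≤ B ≤ A ≤ 2 K`, standing for the six orderings of `(σ^(2a-b), σ^(2b-a), σ^(-a-b))` with
`σ = p / q`, `a = A - K`, `b = B - K`; a law is a packed list of class weights and an edge weight,
in units of `2 ^ (-P)`.
-/

namespace Vale.P154.Lat

/-- A binary tree of positions. -/
inductive Tr (α : Type) : Type
  | none : Tr α
  | leaf : α → Tr α
  | node : Tr α → Tr α → Tr α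

/-- The packed value of a list of weighted positions. -/
def lpack (K : Nat) : List (Nat × Nat) → Nat
  | [] => 0
  | (n, w) :: l => Nat.shiftLeft w (K * n) + lpack K l

/-- The total weight of a list of weighted positions. -/
def lsum : List (Nat × Nat) → Nat
  | [] => 0
  | (_, w) :: l => w + lsum l

/-- Read the digits at the leaves of a static tree and combine them. -/
def tread {α : Type} (K : Nat) (g : α → Nat → Nat) : Nat → Tr α → Nat → Nat
  | 0, .leaf a, N => g a N
  | d + 1, .node l r, N =>
      tread K g d l (Nat.land N (Nat.shiftLeft 1 (K * 2 ^ d) - 1)) +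
        tread K g d r (Nat.shiftRight N (K * 2 ^ d))
  | _, _, _ => 0

/-- A Boolean test at every leaf with its position. -/
def tall {α : Type} (p : α → Nat → Bool) : Nat → Nat → Tr α → Bool
  | 0, off, .leaf a => p a off
  | d + 1, off, .node l r => tall p d off l && tall p d (off + 2 ^ d) r
  | _, _, .none => true
  | _, _, _ => false

/-- The parameters of a lattice. -/
structure Par where
  p : Nat
  q : Nat
  K : Nat
  P : Nat
  dA : Nat
  dP : Nat
  bA : Nat
  sb : Nat
  cw : Nat
  cb : Nat
  classes : List (Nat × Nat)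

/-- A leaf of the node table: the point, its multiplicity and the weighted targets. -/
structure NLeaf where
  A : Nat
  B : Nat
  mult : Nat
  mu : Nat
  tg : List (Nat × Nat × Nat)

/-- A leaf of the edge table. -/
structure ELeaf where
  k : Nat
  mu : Nat
  tg : List (Nat × Nat × Nat)

/-- `p^e q^(R-e)`. -/
def powN (C : Par) (R e : Nat) : Nat := C.p ^ e * C.q ^ (R - e)

/-- The position of a point. -/
def posW (C : Par) (A B : Nat) : Nat := A * (8 * C.K + 1) + B

/-- The orderings of a class. -/
def images (C : Par) (A B : Nat) : List (Nat × Nat) :=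
  [(A, B), (B, A), (A + C.K - B, 2 * C.K - B), (2 * C.K - B, A + C.K - B),
    (2 * C.K - A, B + C.K - A), (B + C.K - A, 2 * C.K - A)]

/-- The mask of `b` bits. -/
def mask (b : Nat) : Nat := Nat.shiftLeft 1 b - 1

/-- The weights of the classes. -/
def withW (C : Par) : List (Nat × Nat) → Nat → List ((Nat × Nat) × Nat)
  | [], _ => []
  | c :: l, S => (c, Nat.land S (mask C.sb)) :: withW C l (Nat.shiftRight S C.sb)

/-- The weighted positions of all orderings. -/
def listA (C : Par) (S : Nat) : List (Nat × Nat) :=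
  (withW C C.classes S).flatMap fun x =>
    (images C x.1.1 x.1.2).map fun y => (posW C y.1 y.2, x.2)

/-- The projected weights, the last colour excluded, rounded down. -/
def listP (C : Par) (S : Nat) : List (Nat × Nat) :=
  (withW C C.classes S).flatMap fun x =>
    (images C x.1.1 x.1.2).map fun y =>
      (y.1 + 2 * C.K - y.2,
        x.2 * powN C (6 * C.K) (2 * y.2 + 2 * C.K - y.1) / (C.p * C.q) ^ (3 * C.K))

/-- The packed row of a list of targets. -/
def rowN (C : Par) : List (Nat × Nat × Nat) → Nat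
  | [] => 0
  | (j, _, c) :: l => Nat.shiftLeft c (C.cw * j) + rowN C l

/-- The offset of the masses. -/
def off (C : Par) : Nat := C.cw * C.classes.length

/-- The contribution of a node leaf. -/
def cN (C : Par) (a : NLeaf) : Nat := a.mult * rowN C a.tg + Nat.shiftLeft a.mu (off C)

/-- The contribution of an edge leaf. -/
def cE (C : Par) (a : ELeaf) : Nat := 3 * rowN C a.tg + Nat.shiftLeft a.mu (off C)

/-- The new class weights are dominated. -/
def binsOk (C : Par) (c : Nat) : List (Nat × Nat) → Nat → Nat → Bool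
  | [], _, _ => true
  | _ :: l, S, N =>
      Nat.ble (c * Nat.land S (mask C.sb)) (Nat.land N (mask C.cw)) &&
        binsOk C c l (Nat.shiftRight S C.sb) (Nat.shiftRight N C.cw)

/-- The fourth power of the interior. -/
def powA (C : Par) (S : Nat) : Nat :=
  (lpack C.bA (listA C S)) ^ 4

/-- The packed edge part of the fourth power. -/
def powE (C : Par) (S E : Nat) : Nat :=
  let X := lpack C.bA (listP C S)
  let e := Nat.shiftLeft E (C.bA * (2 * C.K))
  let Y := 2 * (X * e) + e * e
  2 * (X * X * Y) + Y * Y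

/-- The total weight of the edge part of the fourth power. -/
def sumE (C : Par) (S E : Nat) : Nat :=
  let X := lsum (listP C S)
  let Y := 2 * (X * E) + E * E
  2 * (X * X * Y) + Y * Y

/-- One generation: the weights `S'`, `E'` are dominated by the image of `S`, `E`. -/
def stepOk (C : Par) (TN : Tr NLeaf) (TE : Tr ELeaf) (S E S' E' : Nat) : Bool :=
  let a := lsum (listA C S) ^ 4
  let r := sumE C S E
  let T := tread C.bA (fun l x => cN C l * x) (C.dA + 2) TN (powA C S) +
    tread C.bA (fun l x => cE C l * x) (C.dP + 2) TE (powE C S E)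
  Nat.blt a (2 ^ C.bA) && Nat.blt r (2 ^ C.bA) &&
    Nat.blt ((a + r) * 2 ^ C.cb) (2 ^ C.cw) &&
    binsOk C (6 * 2 ^ (3 * C.P + 40)) C.classes S' (Nat.land T (mask (off C))) &&
    Nat.ble (6 * E' * 2 ^ (3 * C.P + 40) + Nat.shiftRight T (off C)) (3 * 2 ^ (4 * C.P + 40))

/-- The sum of the coefficients. -/
def sumT : List (Nat × Nat × Nat) → Nat
  | [] => 0
  | (_, _, c) :: l => c + sumT l

/-- The weighted sum of coordinate `i` of the targets, scaled by `(p q)^(3 K)`. -/
def imgN (C : Par) (i : Nat) : List (Nat × Nat × Nat) → Nat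
  | [] => 0
  | (j, g, c) :: l =>
      let r := C.classes.getD j (0, 0)
      let y := (images C r.1 r.2).getD g (0, 0)
      c * powN C (6 * C.K)
        (if Nat.beq i 0 then 2 * y.1 + 2 * C.K - y.2
          else if Nat.beq i 1 then 2 * y.2 + 2 * C.K - y.1 else 5 * C.K - y.1 - y.2) + imgN C i l

/-- The targets are classes and orderings. -/
def tgOk (C : Par) : List (Nat × Nat × Nat) → Bool
  | [] => true
  | (j, g, _) :: l => Nat.blt j C.classes.length && Nat.blt g 6 && tgOk C l

/-- The multiplicity of a sector point. -/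
def sectN (x y z : Nat) : Nat :=
  if Nat.ble y x && Nat.ble z y then
    (if Nat.beq x z then 1 else if Nat.beq x y || Nat.beq y z then 3 else 6)
  else 0

/-- A node leaf is correct. -/
def nleafOk (C : Par) (a : NLeaf) (n : Nat) : Bool :=
  let x := powN C (24 * C.K) (2 * a.A + 8 * C.K - a.B)
  let y := powN C (24 * C.K) (2 * a.B + 8 * C.K - a.A)
  let z := powN C (24 * C.K) (20 * C.K - a.A - a.B)
  let m := (C.p * C.q) ^ (9 * C.K)
  Nat.beq n (posW C a.A a.B) && Nat.ble a.A (8 * C.K) && Nat.ble a.B (8 * C.K) &&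
    Nat.ble a.mult (sectN x y z) && tgOk C a.tg &&
    Nat.ble (a.mult * sumT a.tg) (2 ^ C.cb) &&
    Nat.ble (a.mult * (x + y + z) * 2 ^ 40) (a.mu * (C.p * C.q) ^ (12 * C.K)) &&
    Nat.ble (2 * imgN C 0 a.tg * m) (2 ^ 40 * (y + z)) &&
    Nat.ble (2 * imgN C 1 a.tg * m) (2 ^ 40 * (x + z)) &&
    Nat.ble (2 * imgN C 2 a.tg * m) (2 ^ 40 * (x + y))

/-- An edge leaf is correct. -/
def eleafOk (C : Par) (a : ELeaf) (n : Nat) : Bool :=
  let x := powN C (48 * C.K) (3 * a.k)
  let y := (C.p * C.q) ^ (24 * C.K)
  let m := (C.p * C.q) ^ (21 * C.K)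
  Nat.beq n a.k && Nat.ble a.k (16 * C.K) && tgOk C a.tg &&
    Nat.ble (3 * sumT a.tg) (2 ^ C.cb) &&
    Nat.ble (3 * (x + y) * 2 ^ 40) (a.mu * y) &&
    Nat.ble (2 * imgN C 0 a.tg * m) (2 ^ 40 * y) &&
    Nat.ble (2 * imgN C 1 a.tg * m) (2 ^ 40 * x) &&
    Nat.ble (2 * imgN C 2 a.tg * m) (2 ^ 40 * (x + y))

/-- The classes lie in the sector and the depths suffice. -/
def parOk (C : Par) : Bool :=
  Nat.blt 0 C.q && Nat.blt C.q C.p &&
    (C.classes.all fun c => Nat.ble C.K c.2 && Nat.ble c.2 c.1 && Nat.ble c.1 (2 * C.K)) &&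
    Nat.ble (2 * C.K * (8 * C.K + 1) + 2 * C.K + 1) (2 ^ C.dA) && Nat.ble (4 * C.K + 1) (2 ^ C.dP)

end Vale.P154.Lat
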