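import Vale.Agent.P154.Lattice.Pack
import Vale.Agent.P154.Lattice.Comp

/-!
# Sparse packed arrays

A binary tree of depth `d` holds weights at chosen positions below `2 ^ d`; it is packed without
touching empty positions, and read off a packed number without unpacking the rest of it.
-/

namespace Vale.P154.Lat

/-- The weighted sum over a list of weighted positions. -/
def ldot : List (ℕ × ℕ) → (ℕ → ℝ) → ℝ
  | [], _ => 0
  | (n, w) :: l, F => w * F n + ldot l F

/-- The dense list of weighted positions (used in proofs only). -/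
def ldense : List (ℕ × ℕ) → List ℕ
  | [] => []
  | (n, w) :: l => addL (List.replicate n 0 ++ [w]) (ldense l)

theorem dot_append : ∀ (p q : List ℕ) (F : ℕ → ℝ),
    dot (p ++ q) F = dot p F + dot q fun i => F (p.length + i)
  | [], q, F => by simp [dot]
  | a :: p, q, F => by
    simp only [List.cons_append, dot, dot_append p q, List.length_cons]
    have : ∀ i, p.length + 1 + i = p.length + i + 1 := by omega
    simp only [this]
    ring

theorem pack_replicate_zero {K : ℕ} : ∀ m : ℕ, pack K (List.replicate m 0) = 0
  | 0 => by simp [pack]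
  | m + 1 => by simp [List.replicate_succ, pack_cons, pack_replicate_zero m]

theorem dot_replicate_zero (m : ℕ) (F : ℕ → ℝ) : dot (List.replicate m 0) F = 0 :=
  dot_zero _ _ fun a ha => List.eq_of_mem_replicate ha

theorem dot_ldense : ∀ (l : List (ℕ × ℕ)) (F : ℕ → ℝ), dot (ldense l) F = ldot l F
  | [], F => by simp [ldense, ldot, dot]
  | (n, w) :: l, F => by
    simp [ldense, ldot, dot_addL, dot_append, dot_replicate_zero, dot, dot_ldense l]

theorem pack_ldense (K : ℕ) : ∀ l : List (ℕ × ℕ), pack K (ldense l) = lpack K l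
  | [] => rfl
  | (n, w) :: l => by
    simp [ldense, lpack, pack_addL, pack_append, pack_replicate_zero, pack, pack_ldense K l,
      Nat.shiftLeft_eq', Nat.shiftLeft_eq, mul_comm]

theorem sum_ldense : ∀ l : List (ℕ × ℕ), (ldense l).sum = lsum l
  | [] => rfl
  | (n, w) :: l => by simp [ldense, lsum, sum_addL, sum_ldense l]

/-- The weighted sum over the leaves of a static tree. -/
def tdot {α : Type} (φ : α → ℕ → ℝ) : ℕ → ℕ → Tr α → ℝ
  | 0, off, .leaf a => φ a off
  | d + 1, off, .node l r => tdot φ d off l + tdot φ d (off + 2 ^ d) r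
  | _, _, _ => 0

theorem pack_lt (K : ℕ) : ∀ l : List ℕ, (∀ a ∈ l, a < 2 ^ K) → pack K l < 2 ^ (K * l.length)
  | [], _ => by simp [pack]
  | a :: l, h => by
    have h1 := pack_lt K l fun b hb => h b (by simp [hb])
    have ha := h a (by simp)
    rw [pack_cons, List.length_cons, Nat.mul_succ, pow_add]
    calc a + 2 ^ K * pack K l < 2 ^ K * (pack K l + 1) := by rw [mul_add]; omega
      _ ≤ 2 ^ K * 2 ^ (K * l.length) := Nat.mul_le_mul le_rfl h1
      _ = _ := mul_comm _ _

theorem pack_split (K m : ℕ) (l : List ℕ) (h : ∀ a ∈ l, a < 2 ^ K) :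
    pack K l % 2 ^ (K * m) = pack K (l.take m) ∧ pack K l / 2 ^ (K * m) = pack K (l.drop m) := by
  have h1 : pack K (l.take m) < 2 ^ (K * m) :=
    lt_of_lt_of_le (pack_lt K _ fun a ha => h a (List.mem_of_mem_take ha))
      (Nat.pow_le_pow_right (by norm_num) (Nat.mul_le_mul le_rfl (List.length_take_le m l)))
  rcases le_or_gt l.length m with hm | hm
  · rw [List.take_of_length_le hm] at h1 ⊢
    rw [List.drop_of_length_le hm]
    exact ⟨Nat.mod_eq_of_lt h1, by rw [Nat.div_eq_of_lt h1]; rfl⟩
  · have e := pack_append (K := K) (l.take m) (l.drop m)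
    rw [List.take_append_drop, List.length_take, min_eq_left hm.le] at e
    rw [e]
    exact ⟨by rw [Nat.add_mul_mod_self_left, Nat.mod_eq_of_lt h1], by
      rw [Nat.add_mul_div_left _ _ (Nat.two_pow_pos _), Nat.div_eq_of_lt h1, zero_add]⟩

/-- Reading a packed list at the leaves and summing real weights. -/
def tval {α : Type} (φ : α → ℕ → ℝ) : ℕ → ℕ → Tr α → List ℕ → ℝ
  | 0, off, .leaf a, r => (r.headD 0 : ℕ) * φ a off
  | d + 1, off, .node l t, r => tval φ d off l (r.take (2 ^ d)) + tval φ d (off + 2 ^ d) t (r.drop (2 ^ d))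
  | _, _, _, _ => 0

theorem tread_eq {α : Type} {K : ℕ} (c : α → ℕ) : ∀ (d : ℕ) (t : Tr α) (r : List ℕ),
    (∀ a ∈ r, a < 2 ^ K) → r.length ≤ 2 ^ d → ∀ off,
    ((tread K (fun a x => c a * x) d t (pack K r) : ℕ) : ℝ) = tval (fun a _ => (c a : ℝ)) d off t r
  | 0, .none, r, _, _, _ => by simp [tread, tval]
  | 0, .node _ _, r, _, _, _ => by simp [tread, tval]
  | 0, .leaf a, r, _, hl, _ => by
    match r, hl with
    | [], _ => simp [tread, tval, pack]
    | [b], _ => simp [tread, tval, pack, mul_comm]
    | _ :: _ :: _, hl => simp at hl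
  | d + 1, .none, r, _, _, _ => by simp [tread, tval]
  | d + 1, .leaf _, r, _, _, _ => by simp [tread, tval]
  | d + 1, .node l t, r, h, hl, off => by
    have hs := pack_split K (2 ^ d) r h
    have e1 : Nat.land (pack K r) (Nat.shiftLeft 1 (K * 2 ^ d) - 1) = pack K r % 2 ^ (K * 2 ^ d) := by
      rw [Nat.shiftLeft_eq', Nat.one_shiftLeft]
      exact Nat.and_two_pow_sub_one_eq_mod _ _
    simp only [tread, tval, e1, Nat.shiftRight_eq', Nat.shiftRight_eq_div_pow, hs.1, hs.2, Nat.cast_add]
    rw [pow_succ] at hl
    rw [tread_eq c d l _ (fun a ha => h a (List.mem_of_mem_take ha)) (List.length_take_le _ _),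
      tread_eq c d t _ (fun a ha => h a (List.mem_of_mem_drop ha))
        (by rw [List.length_drop]; omega)]

theorem tval_le_dot {α : Type} (φ : α → ℕ → ℝ) (H : ℕ → ℝ) (p : α → ℕ → Bool)
    (hH : ∀ n, 0 ≤ H n) (hp : ∀ a n, p a n = true → φ a n ≤ H n) :
    ∀ (d off : ℕ) (t : Tr α), tall p d off t = true → ∀ r : List ℕ,
    tval φ d off t r ≤ dot r fun i => H (off + i) := by
  have nn : ∀ (r : List ℕ) (off : ℕ), 0 ≤ dot r fun i => H (off + i) := by
    intro r
    induction r with
    | nil => simp [dot]
    | cons a r ih =>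
      intro off
      simp only [dot]
      have := ih (off + 1)
      simp only [add_assoc, add_comm 1] at this
      exact add_nonneg (mul_nonneg (Nat.cast_nonneg a) (hH _)) this
  intro d
  induction d with
  | zero =>
    intro off t ht r
    cases t with
    | leaf a =>
      cases r with
      | nil => simp [tval, dot]
      | cons b r =>
        simp only [tval, dot, List.headD_cons, add_zero]
        have := nn r (off + 1)
        simp only [add_assoc, add_comm 1] at this
        have := mul_le_mul_of_nonneg_left (hp a off ht) (Nat.cast_nonneg (α := ℝ) b)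
        linarith
    | none => simpa [tval] using nn r off
    | node l t => simpa [tval] using nn r off
  | succ d ih =>
    intro off t ht r
    cases t with
    | leaf a => simpa [tval] using nn r off
    | none => simpa [tval] using nn r off
    | node l t =>
      simp only [tall, Bool.and_eq_true] at ht
      simp only [tval]
      have h1 := ih off l ht.1 (r.take (2 ^ d))
      have h2 := ih (off + 2 ^ d) t ht.2 (r.drop (2 ^ d))
      conv_rhs => rw [← List.take_append_drop (2 ^ d) r, dot_append]
      rcases le_or_gt r.length (2 ^ d) with hm | hm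
      · rw [List.drop_of_length_le hm] at h2 ⊢
        simp only [dot, add_zero] at h2 ⊢
        linarith
      · simp only [List.length_take, min_eq_left hm.le, ← add_assoc]
        linarith

end Vale.P154.Lat
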