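import Vale.Agent.P154.Lattice.Func
import Vale.Agent.P154.Lattice.Sparse

/-!
# Products of symmetric finite functionals

Weighted lists of vectors as functionals, the part of a fourth power without a colour excluded
twice, and the reduction to one sector of the colour orderings.
-/

noncomputable section

namespace Vale.P154.Lat

open Finset

/-- A weighted list of vectors as a functional. -/
def lval (l : List (ℝ × V3)) (F : V3 → ℝ) : ℝ := (l.map fun x => x.1 * F x.2).sum

/-- Nonnegative weights and vectors. -/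
def Pos (l : List (ℝ × V3)) : Prop := ∀ x ∈ l, 0 ≤ x.1 ∧ ∀ i, 0 ≤ x.2 i

/-- The product of two functionals. -/
def two (S T : (V3 → ℝ) → ℝ) (F : V3 → ℝ) : ℝ := S fun a => T fun b => F fun i => a i * b i

theorem finitary_lval {l : List (ℝ × V3)} (hl : Pos l) : Finitary (lval l) where
  mono F G h := by
    refine List.sum_le_sum fun x hx => ?_
    exact mul_le_mul_of_nonneg_left (h _ (hl x hx).2) (hl x hx).1
  sum t F := by
    induction l with
    | nil => simp [lval]
    | cons x l ih =>
      have := ih fun y hy => hl y (by simp [hy])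
      simp only [lval, List.map_cons, List.sum_cons] at this ⊢
      rw [this, Finset.sum_add_distrib, Finset.mul_sum]

theorem lval_append (l m : List (ℝ × V3)) (F : V3 → ℝ) : lval (l ++ m) F = lval l F + lval m F := by
  simp [lval]

theorem lval_add (l : List (ℝ × V3)) (F G : V3 → ℝ) :
    lval l (fun v => F v + G v) = lval l F + lval l G := by
  induction l with
  | nil => simp [lval]
  | cons x l ih =>
    simp only [lval, List.map_cons, List.sum_cons] at ih ⊢
    rw [ih]; ring

theorem lval_const_mul (l : List (ℝ × V3)) (c : ℝ) (F : V3 → ℝ) :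
    lval l (fun v => c * F v) = c * lval l F := by
  induction l with
  | nil => simp [lval]
  | cons x l ih =>
    simp only [lval, List.map_cons, List.sum_cons] at ih ⊢
    rw [ih]; ring

theorem lval_nonneg {l : List (ℝ × V3)} (hl : Pos l) {F : V3 → ℝ}
    (hF : ∀ v, (∀ i, 0 ≤ v i) → 0 ≤ F v) : 0 ≤ lval l F := by
  refine List.sum_nonneg fun y hy => ?_
  obtain ⟨x, hx, rfl⟩ := List.mem_map.1 hy
  exact mul_nonneg (hl x hx).1 (hF _ (hl x hx).2)

/-- All products of two lists. -/
def lmul (l m : List (ℝ × V3)) : List (ℝ × V3) :=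
  l.flatMap fun x => m.map fun y => (x.1 * y.1, fun i => x.2 i * y.2 i)

theorem lval_lmul (l m : List (ℝ × V3)) (F : V3 → ℝ) :
    lval (lmul l m) F = two (lval l) (lval m) F := by
  induction l with
  | nil => simp [lmul, lval, two]
  | cons x l ih =>
    simp only [lmul, List.flatMap_cons, lval_append] at ih ⊢
    rw [ih]
    simp only [two, lval, List.map_cons, List.sum_cons, List.map_map, ← List.sum_map_mul_left,
      Function.comp_def, mul_assoc]

theorem pos_lmul {l m : List (ℝ × V3)} (hl : Pos l) (hm : Pos m) : Pos (lmul l m) := by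
  intro z hz
  obtain ⟨x, hx, hz⟩ := List.mem_flatMap.1 hz
  obtain ⟨y, hy, rfl⟩ := List.mem_map.1 hz
  exact ⟨mul_nonneg (hl x hx).1 (hm y hy).1, fun i => mul_nonneg ((hl x hx).2 i) ((hm y hy).2 i)⟩

theorem pos_append {l m : List (ℝ × V3)} (hl : Pos l) (hm : Pos m) : Pos (l ++ m) := by
  intro z hz
  rcases List.mem_append.1 hz with h | h
  · exact hl z h
  · exact hm z h

theorem two_comm (l m : List (ℝ × V3)) (F : V3 → ℝ) :
    two (lval l) (lval m) F = two (lval m) (lval l) F := by
  unfold two
  induction l with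
  | nil => simp [lval]
  | cons x l ih =>
    simp only [lval, List.map_cons, List.sum_cons] at ih ⊢
    rw [ih, ← List.sum_map_mul_left, ← List.sum_map_add]
    congr 1
    refine List.map_congr_left fun y _ => ?_
    have : (fun i => x.2 i * y.2 i) = fun i => y.2 i * x.2 i := by funext i; ring
    rw [this]; ring

theorem four_eq_two (l : List (ℝ × V3)) (F : V3 → ℝ) :
    four (lval l) F = two (lval (lmul l l)) (lval (lmul l l)) F := by
  simp only [four, two, lval_lmul]
  congr 1; funext a; congr 1; funext b; congr 1; funext c; congr 1; funext d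
  congr 1; funext i; ring

/-- The part excluding colour `g` in the square of `A + B g`. -/
def sqPart (A : List (ℝ × V3)) (B : List (ℝ × V3)) : List (ℝ × V3) :=
  lmul A B ++ lmul A B ++ lmul B B

theorem pos_sqPart {A B : List (ℝ × V3)} (hA : Pos A) (hB : Pos B) : Pos (sqPart A B) :=
  pos_append (pos_append (pos_lmul hA hB) (pos_lmul hA hB)) (pos_lmul hB hB)

theorem sq_ge {A B0 B1 B2 : List (ℝ × V3)} (hA : Pos A) (h0 : Pos B0) (h1 : Pos B1) (h2 : Pos B2)
    {F : V3 → ℝ} (hF : ∀ v, (∀ i, 0 ≤ v i) → 0 ≤ F v) :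
    lval (lmul A A ++ sqPart A B0 ++ sqPart A B1 ++ sqPart A B2) F ≤
      lval (lmul (A ++ B0 ++ B1 ++ B2) (A ++ B0 ++ B1 ++ B2)) F := by
  have e : ∀ l m : List (ℝ × V3), Pos l → Pos m → 0 ≤ two (lval l) (lval m) F := by
    intro l m hl hm
    rw [← lval_lmul]; exact lval_nonneg (pos_lmul hl hm) hF
  have a01 := e _ _ h0 h1
  have a02 := e _ _ h0 h2
  have a12 := e _ _ h1 h2
  have c0 := two_comm B0 A F
  have c1 := two_comm B1 A F
  have c2 := two_comm B2 A F
  have d01 := two_comm B1 B0 F
  have d02 := two_comm B2 B0 F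
  have d12 := two_comm B2 B1 F
  simp only [sqPart, lval_append, lval_lmul]
  simp only [two, lval_append, lval_add] at *
  linarith

/-- The weight of a vector in the sector `v 0 ≥ v 1 ≥ v 2`. -/
def sect (x y z : ℝ) : ℝ :=
  if y ≤ x ∧ z ≤ y then (if x = z then 1 else if x = y ∨ y = z then 3 else 6) else 0

theorem sect_sum_le (a b c : ℝ) :
    sect a b c + sect a c b + sect b a c + sect b c a + sect c a b + sect c b a ≤ 6 := by
  unfold sect
  rcases lt_trichotomy a b with h1 | h1 | h1 <;> rcases lt_trichotomy a c with h2 | h2 | h2 <;>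
    rcases lt_trichotomy b c with h3 | h3 | h3 <;>
    (first | (exfalso; linarith) | skip) <;>
    simp_all [le_of_lt, not_le_of_gt, ne_of_lt, ne_of_gt] <;> norm_num

theorem perms_univ : (Finset.univ : Finset (Equiv.Perm (Fin 3))) =
    {1, Equiv.swap 1 2, Equiv.swap 0 1, Equiv.swap 0 1 * Equiv.swap 1 2,
      Equiv.swap 1 2 * Equiv.swap 0 1, Equiv.swap 0 2} := by decide

theorem sum_perms (F : V3 → ℝ) (v : V3) : ∑ π : Equiv.Perm (Fin 3), F (fun i => v (π i)) =
    F ![v 0, v 1, v 2] + F ![v 0, v 2, v 1] + F ![v 1, v 0, v 2] + F ![v 1, v 2, v 0] +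
      F ![v 2, v 0, v 1] + F ![v 2, v 1, v 0] := by
  rw [perms_univ]
  repeat rw [Finset.sum_insert (by decide)]
  rw [Finset.sum_singleton]
  have e : ∀ π : Equiv.Perm (Fin 3), (fun i => v (π i)) = ![v (π 0), v (π 1), v (π 2)] := by
    intro π; funext i; fin_cases i <;> rfl
  simp only [e]
  simp [Equiv.swap_apply_def]
  ring

/-- A functional unchanged by averaging over the colours sees only the sector. -/
theorem sector_le {l : List (ℝ × V3)} (hl : Pos l) (hsym : ∀ F, lval l F = lval l (avg F))
    {G : V3 → ℝ} (hG : ∀ v, (∀ i, 0 ≤ v i) → 0 ≤ G v) (hGs : Sym G) :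
    lval l (fun v => sect (v 0) (v 1) (v 2) * G v) ≤ lval l G := by
  rw [hsym]
  refine (finitary_lval hl).mono _ _ fun v hv => ?_
  unfold avg
  rw [show (∑ π : Equiv.Perm (Fin 3),
      sect (v (π 0)) (v (π 1)) (v (π 2)) * G fun i => v (π i)) =
      (∑ π : Equiv.Perm (Fin 3), sect (v (π 0)) (v (π 1)) (v (π 2))) * G v from by
        rw [Finset.sum_mul]; exact Finset.sum_congr rfl fun π _ => by rw [hGs π v]]
  have h := sum_perms (fun w => sect (w 0) (w 1) (w 2)) v
  simp at h
  rw [h, div_le_iff₀ (by norm_num)]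
  exact le_trans (mul_le_mul_of_nonneg_right (sect_sum_le (v 0) (v 1) (v 2)) (hG v hv)) (le_of_eq (mul_comm _ _))

theorem avg_comp_mul (F : V3 → ℝ) (π : Equiv.Perm (Fin 3)) (a : V3) :
    (fun b : V3 => F fun i => a i * b (π i)) =
      fun b : V3 => (fun w : V3 => F fun i => a i * w i) fun i => b (π i) := rfl

theorem sym_of_perm {l : List (ℝ × V3)}
    (h : ∀ F (π : Equiv.Perm (Fin 3)), lval l (fun v => F fun i => v (π i)) = lval l F) :
    ∀ F, lval l F = lval l (avg F) := by
  intro F
  have aux : ∀ m : List (ℝ × V3),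
      lval m (avg F) = (∑ π : Equiv.Perm (Fin 3), lval m fun v => F fun i => v (π i)) / 6 := by
    intro m
    induction m with
    | nil => simp [lval]
    | cons x m ih =>
      simp only [lval, List.map_cons, List.sum_cons] at ih ⊢
      rw [ih, Finset.sum_add_distrib, ← Finset.mul_sum]
      unfold avg
      ring
  rw [aux]
  simp [h, Fintype.card_perm, Nat.factorial]

theorem perm_two {l m : List (ℝ × V3)}
    (hl : ∀ F (π : Equiv.Perm (Fin 3)), lval l (fun v => F fun i => v (π i)) = lval l F)
    (hm : ∀ F (π : Equiv.Perm (Fin 3)), lval m (fun v => F fun i => v (π i)) = lval m F)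
    (F : V3 → ℝ) (π : Equiv.Perm (Fin 3)) :
    lval (lmul l m) (fun v => F fun i => v (π i)) = lval (lmul l m) F := by
  simp only [lval_lmul, two]
  rw [← hl (fun a => lval m fun b => F fun i => a i * b i) π]
  congr 1; funext a
  exact hm (fun b => F fun i => a (π i) * b i) π

end Vale.P154.Lat
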