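import Vale.Agent.P154.Lattice.Comp

/-!
# Checkers for a change of lattice and for the final law
-/

namespace Vale.P154.Lat

/-- The weights `6 * ∑ w` of a packed law. -/
def totW (C : Par) : List (Nat × Nat) → Nat → Nat
  | [], _ => 0
  | _ :: l, S => Nat.land S (mask C.sb) + totW C l (Nat.shiftRight S C.sb)

/-- The weights carried to another lattice, packed. -/
def swZ (C C' : Par) : List (Nat × Nat) → List (List (Nat × Nat × Nat)) → Nat → Nat
  | _ :: l, tg :: t, S =>
      Nat.land S (mask C.sb) * rowN C' tg + swZ C C' l t (Nat.shiftRight S C.sb)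
  | _, _, _ => 0

/-- The total weight carried to another lattice. -/
def swT (C : Par) : List (Nat × Nat) → List (List (Nat × Nat × Nat)) → Nat → Nat
  | _ :: l, tg :: t, S => Nat.land S (mask C.sb) * sumT tg + swT C l t (Nat.shiftRight S C.sb)
  | _, _, _ => 0

/-- Each old class dominates its targets. -/
def swTab (C C' : Par) : List (Nat × Nat) → List (List (Nat × Nat × Nat)) → Bool
  | c :: l, tg :: t =>
      tgOk C' tg &&
        Nat.ble (imgN C' 0 tg * (C.p * C.q) ^ (3 * C.K))
          (2 ^ 40 * powN C (6 * C.K) (2 * c.1 + 2 * C.K - c.2) * (C'.p * C'.q) ^ (3 * C'.K)) &&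
        Nat.ble (imgN C' 1 tg * (C.p * C.q) ^ (3 * C.K))
          (2 ^ 40 * powN C (6 * C.K) (2 * c.2 + 2 * C.K - c.1) * (C'.p * C'.q) ^ (3 * C'.K)) &&
        Nat.ble (imgN C' 2 tg * (C.p * C.q) ^ (3 * C.K))
          (2 ^ 40 * powN C (6 * C.K) (5 * C.K - c.1 - c.2) * (C'.p * C'.q) ^ (3 * C'.K)) &&
        swTab C C' l t
  | [], [] => true
  | _, _ => false

/-- A change of lattice. -/
def swOk (C C' : Par) (t : List (List (Nat × Nat × Nat))) (S E S' E' : Nat) : Bool :=
  Nat.beq C.P C'.P && swTab C C' C.classes t && Nat.blt (swT C C.classes t S) (2 ^ C'.cw) &&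
    binsOk C' (2 ^ 40) C'.classes S' (swZ C C' C.classes t S) && Nat.ble E' E

/-- The total weight of a law is checked to be large. -/
def finOk (C : Par) (S : Nat) : Bool :=
  Nat.ble (157 * 2 ^ C.P) (160 * (6 * totW C C.classes S))

end Vale.P154.Lat
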