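import Vale.Agent.P154.Lattice.Step
import Vale.Agent.P154.Lattice.Switch

/-!
# Start, change of lattice and conclusion

The start is the law at depth `0`; a law on one lattice is re-expressed on another by a checked
table; a checked final law gives a lower bound for the geometric mean affinity at all later depths.
-/

noncomputable section

namespace Vale.P154.Lat

open Finset

theorem withW_zero (C : Par) : ∀ l : List (ℕ × ℕ), ∀ x ∈ withW C l 0, x.2 = 0
  | [], x, h => by simp [withW] at h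
  | c :: l, x, h => by
    have e1 : Nat.land 0 (mask C.sb) = 0 := Nat.zero_and _
    have e2 : Nat.shiftRight 0 C.sb = 0 := Nat.zero_shiftRight _
    rw [withW, e1, e2] at h
    rcases List.mem_cons.1 h with rfl | h
    · rfl
    · exact withW_zero C l x h

/-- Depth zero. -/
theorem below_zero {C : Par} (hC : parOk C = true) {P : ℕ} (hP : C.P = P + 1) :
    Below (sval C 0 (2 ^ P)) 0 := by
  intro F hF
  have hA : lval (realA C 0) F = 0 := by
    rw [lval_realA_gen]
    refine List.sum_eq_zero fun y hy => ?_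
    obtain ⟨x, hx, rfl⟩ := List.mem_map.1 hy
    simp [withW_zero C _ x hx]
  have e : ∀ i : Fin 3, F (ch (e1 i)) = (1 / 2 : ℝ) * F (eu i) := by
    intro i
    have h : ch (e1 i) = fun j => (1 / 2 : ℝ) * eu i j := by
      funext j
      fin_cases i <;> fin_cases j <;> simp [ch, e1, eu]
    rw [h, hF.smul _ _ (by norm_num) (eu_nonneg i)]
  have hlik : ∀ s : Fin 3, lik (-(1 / 2)) 0 (regTree 4 0) s = e1 s := by
    intro s; funext i
    show (if s = i then (1 : ℝ) else 0) = e1 s i
    simp only [e1, eq_comm]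
  refine le_of_eq ?_
  show _ = ∑ s : Fin 3, F (ch (lik (-(1 / 2)) 0 (regTree 4 0) s))
  simp only [hlik, id, e, Fin.sum_univ_three]
  simp only [sval, lval_append, hA]
  simp [lval, realB, hP, pow_succ]
  field_simp

theorem swTab_sound {C C' : Par} (hC : parOk C = true) (hC' : parOk C' = true) {F : V3 → ℝ}
    (hF : Conc F) (hs : Sym F) : ∀ (l : List (ℕ × ℕ)) (t : List (List (ℕ × ℕ × ℕ))) (S : ℕ),
    (∀ c ∈ l, c ∈ C.classes) → swTab C C' l t = true →
    ∃ Z : List ℕ, pack C'.cw Z = swZ C C' l t S ∧ Z.sum ≤ swT C l t S ∧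
      Z.length ≤ C'.classes.length ∧
      dot Z (clsVal C' F) / 2 ^ 40 ≤
        ((withW C l S).map fun x => (x.2 : ℝ) * F (vec C 1 x.1.1 x.1.2)).sum
  | [], [], S, _, _ => ⟨[], rfl, le_rfl, Nat.zero_le _, by simp [withW, dot]⟩
  | [], _ :: _, _, _, h => by simp [swTab] at h
  | _ :: _, [], _, _, h => by simp [swTab] at h
  | c :: l, tg :: t, S, hl, h => by
    simp only [swTab, Bool.and_eq_true, Nat.ble_eq] at h
    obtain ⟨⟨⟨⟨ht, h0⟩, h1⟩, h2⟩, hrest⟩ := h
    obtain ⟨Z, e1, e2, e3, e4⟩ := swTab_sound hC hC' hF hs l t (Nat.shiftRight S C.sb)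
      (fun x hx => hl x (by simp [hx])) hrest
    obtain ⟨hc1, hc2, hc3⟩ := class_mem hC (hl c (by simp))
    obtain ⟨ex, ey, ez⟩ := vec_powN hC (m := 1) (A := c.1) (B := c.2) (by omega) (by omega)
    simp only [mul_one] at ex ey ez
    have hQ := pow_pos (pq_pos hC) (3 * C.K)
    have h0' := (Nat.cast_le (α := ℝ)).2 h0
    have h1' := (Nat.cast_le (α := ℝ)).2 h1
    have h2' := (Nat.cast_le (α := ℝ)).2 h2
    push_cast at h0' h1' h2' ex ey ez hQ
    simp only [ex, ey, ez] at h0' h1' h2'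
    have hP : ∀ i : Fin 3, (imgN C' i tg : ℝ) ≤
        2 ^ 40 * vec C 1 c.1 c.2 i * ((C'.p * C'.q : ℕ) : ℝ) ^ (3 * C'.K) := by
      intro i
      push_cast
      fin_cases i <;> simp only [Fin.zero_eta, Fin.mk_one, Fin.reduceFinMk, Fin.val_zero,
        Fin.val_one, Fin.val_two] <;> refine le_of_mul_le_mul_right ?_ hQ <;> linarith
    have hT := targets_le hC' hF hs ht hP
    refine ⟨addL ((rowL tg).map (Nat.land S (mask C.sb) * ·)) Z, ?_, ?_, ?_, ?_⟩
    · simp [swZ, pack_addL, pack_smul, pack_rowL, e1]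
    · simp only [sum_addL, sum_smul, sum_rowL, swT]; omega
    · rw [length_addL, List.length_map]; exact max_le (length_rowL _ ht) e3
    · simp only [dot_addL, dot_smul, withW, List.map_cons, List.sum_cons, add_div, mul_div_assoc]
      exact add_le_add (mul_le_mul_of_nonneg_left hT (Nat.cast_nonneg _)) e4

/-- Re-expression on another lattice. -/
theorem below_switch {C C' : Par} {t : List (List (ℕ × ℕ × ℕ))} {S E S' E' n : ℕ}
    (hC : parOk C = true) (hC' : parOk C' = true) (h : swOk C C' t S E S' E' = true)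
    (hB : Below (sval C S E) n) : Below (sval C' S' E') n := by
  refine Below.of_sym (fun F _ => sval_avg hC' S' E' F) fun F hF hs => ?_
  refine le_trans ?_ (hB F hF)
  simp only [swOk, Bool.and_eq_true, Nat.beq_eq, Nat.blt_eq, Nat.ble_eq] at h
  obtain ⟨⟨⟨⟨hP, ht⟩, hsum⟩, hbins⟩, hE⟩ := h
  obtain ⟨Z, e1, e2, -, e4⟩ := swTab_sound hC hC' hF hs C.classes t S (fun _ h => h) ht
  rw [← e1] at hbins
  have hb := bins_dot C' (2 ^ 40) C'.classes S' Z hbins
    (fun x hx => lt_of_le_of_lt ((le_sum _ x hx).trans e2) hsum)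
    (fun c => F (vec C' 1 c.1 c.2)) fun c => hF.nn _ (vec_nonneg hC' _ _ _)
  change _ ≤ dot Z (clsVal C' F) at hb
  rw [List.sum_map_mul_left] at hb
  push_cast at hb
  rw [sval_sym hC' S' E' hs, sval_sym hC S E hs, ← hP]
  refine add_le_add (mul_le_mul_of_nonneg_left ?_ (by positivity))
    (mul_le_mul_of_nonneg_right ?_ (hF.nn _ (eu_nonneg 0)))
  · rw [div_le_iff₀ (by positivity)] at e4
    linarith
  · gcongr

theorem totW_eq (C : Par) : ∀ (l : List (ℕ × ℕ)) (S : ℕ),
    (totW C l S : ℝ) = ((withW C l S).map fun x => (x.2 : ℝ)).sum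
  | [], S => by simp [totW, withW]
  | c :: l, S => by simp [totW, withW, totW_eq C l]

theorem hvec_gm {v : V3} (hv : ∀ i, 0 < v i) (h : v 0 * v 1 * v 2 = 1) :
    hvec (fun _ : Fin 3 => (1 / 3 : ℝ)) v = 1 := by
  unfold hvec
  rw [Finset.sum_const, Finset.card_univ, Fin.prod_univ_three,
    ← Real.mul_rpow (hv 0).le (hv 1).le, ← Real.mul_rpow (mul_nonneg (hv 0).le (hv 1).le) (hv 2).le,
    h, Real.one_rpow, nsmul_eq_mul, mul_one]
  exact div_self (Nat.cast_ne_zero.2 Fintype.card_ne_zero)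

/-- The conclusion of the density evolution. -/
theorem hChan_of_below {C : Par} {S E N : ℕ} (hC : parOk C = true) (hf : finOk C S = true)
    (h : Below (sval C S E) N) {n : ℕ} (hn : N ≤ n) :
    1 - 3 / 160 ≤ hChan (q := 3) (fun _ => 1 / 3) (-(1 / 2)) n (regTree 4 n) := by
  have ha : Expo (fun _ : Fin 3 => (1 / 3 : ℝ)) := ⟨fun _ => by norm_num, by simp⟩
  refine le_trans ?_ (h.hChan_ge ha hn)
  have hsym : Sym (hvec (fun _ : Fin 3 => (1 / 3 : ℝ))) := fun π v => hvec_perm _ v π
  rw [sval_sym hC S E hsym]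
  have hs := sig_pos hC
  have e : ∀ A B, hvec (fun _ : Fin 3 => (1 / 3 : ℝ)) (vec C 1 A B) = 1 := fun A B =>
    hvec_gm (fun i => by fin_cases i <;> simp [vec] <;> positivity) (by
      simp [vec, ← zpow_add₀ hs.ne']; ring_nf; simp)
  simp only [e, mul_one, ← totW_eq]
  simp only [finOk, Nat.ble_eq] at hf
  have hf' : (157 : ℝ) * 2 ^ C.P ≤ 160 * (6 * (totW C C.classes S : ℝ)) := by exact_mod_cast hf
  have h0 : 0 ≤ 3 * (E : ℝ) / 2 ^ C.P * hvec (fun _ : Fin 3 => (1 / 3 : ℝ)) (eu 0) :=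
    mul_nonneg (by positivity) (hvec_nonneg _ (eu_nonneg 0))
  refine le_trans ?_ (le_add_of_nonneg_right h0)
  rw [div_mul_eq_mul_div, le_div_iff₀ (by positivity)]
  linarith

end Vale.P154.Lat
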