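import Vale.Agent.P154.Garble
import Vale.Agent.P154.Mult

/-!
# Domination of the boundary observation on regular trees by finite experiments

The observation at depth `n` is dominated by a finite experiment `M` when it is a garbling of `M`.
Domination passes through one generation of the tree, through rounding a likelihood vector to a
nonnegative combination of prescribed vectors, and it bounds every `hvec` functional from below.
-/

noncomputable section

namespace Vale.P154

open Finset Filter Topology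

variable {q : ℕ}

theorem prod_rpow_add_le {a x y : Fin q → ℝ} (ha : Expo a) (hx : ∀ i, 0 ≤ x i)
    (hy : ∀ i, 0 ≤ y i) :
    ∏ i, x i ^ a i + ∏ i, y i ^ a i ≤ ∏ i, (x i + y i) ^ a i := by
  by_cases h : ∃ i, x i + y i = 0 ∧ a i ≠ 0
  · obtain ⟨i, hi, hai⟩ := h
    have hxi : x i = 0 := le_antisymm (by linarith [hy i]) (hx i)
    have hyi : y i = 0 := le_antisymm (by linarith [hx i]) (hy i)
    rw [Finset.prod_eq_zero (Finset.mem_univ i) (by rw [hxi, Real.zero_rpow hai]),
      Finset.prod_eq_zero (Finset.mem_univ i) (by rw [hyi, Real.zero_rpow hai]), zero_add]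
    exact Finset.prod_nonneg fun j _ => Real.rpow_nonneg (add_nonneg (hx j) (hy j)) _
  · push Not at h
    have key : ∀ z : Fin q → ℝ, (∀ i, 0 ≤ z i) → (∀ i, z i ≤ x i + y i) →
        ∏ i, z i ^ a i ≤ (∑ i, a i * (z i / (x i + y i))) * ∏ i, (x i + y i) ^ a i := by
      intro z hz hzle
      have hd : ∀ i, 0 ≤ z i / (x i + y i) := fun i =>
        div_nonneg (hz i) (add_nonneg (hx i) (hy i))
      have hg := Real.geom_mean_le_arith_mean_weighted Finset.univ a
        (fun i => z i / (x i + y i)) (fun i _ => ha.1 i) ha.2 (fun i _ => hd i)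
      refine le_trans (le_of_eq ?_) (mul_le_mul_of_nonneg_right hg
        (Finset.prod_nonneg fun i _ => Real.rpow_nonneg (add_nonneg (hx i) (hy i)) _))
      rw [← Finset.prod_mul_distrib]
      refine Finset.prod_congr rfl fun i _ => ?_
      by_cases h0 : x i + y i = 0
      · simp [h i h0]
      · rw [← Real.mul_rpow (hd i) (add_nonneg (hx i) (hy i)), div_mul_cancel₀ _ h0]
    refine le_trans (add_le_add (key x hx fun i => by linarith [hy i])
      (key y hy fun i => by linarith [hx i])) (le_of_eq ?_)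
    rw [← add_mul, ← Finset.sum_add_distrib]
    refine mul_eq_right₀ ?_ |>.2 ?_
    · refine (Finset.prod_pos fun i _ => ?_).ne'
      by_cases h0 : x i + y i = 0
      · simp [h i h0]
      · exact Real.rpow_pos_of_pos (lt_of_le_of_ne (add_nonneg (hx i) (hy i)) (Ne.symm h0)) _
    · refine Eq.trans (Finset.sum_congr rfl fun i _ => ?_) ha.2
      by_cases h0 : x i + y i = 0
      · simp [h i h0]
      · rw [← mul_add, ← add_div, div_self h0, mul_one]

theorem hvec_add_le {a x y : Fin q → ℝ} (ha : Expo a) (hx : ∀ i, 0 ≤ x i) (hy : ∀ i, 0 ≤ y i) :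
    hvec a x + hvec a y ≤ hvec a (fun i => x i + y i) := by
  unfold hvec
  rw [← add_div, ← Finset.sum_add_distrib]
  refine div_le_div_of_nonneg_right (Finset.sum_le_sum fun π _ => ?_) (Nat.cast_nonneg _)
  exact prod_rpow_add_le (a := fun i => a (π i))
    ⟨fun i => ha.1 _, by rw [Equiv.sum_comp π a, ha.2]⟩ hx hy

theorem hvec_smul {a v : Fin q → ℝ} (ha : Expo a) {r : ℝ} (hr : 0 ≤ r) (hv : ∀ i, 0 ≤ v i) :
    hvec a (fun i => r * v i) = r * hvec a v := by
  unfold hvec
  rw [Finset.sum_congr rfl fun π _ => prod_rpow_smul ha hr hv π, ← Finset.mul_sum, mul_div_assoc]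

theorem sum_hvec_le {a : Fin q → ℝ} (ha : Expo a) {ι : Type} (s : Finset ι) (v : ι → Fin q → ℝ)
    (hv : ∀ k i, 0 ≤ v k i) : ∑ k ∈ s, hvec a (v k) ≤ hvec a (fun i => ∑ k ∈ s, v k i) := by
  classical
  induction s using Finset.induction with
  | empty => simp [hvec_zero ha]
  | insert k s hk ih =>
    simp only [Finset.sum_insert hk]
    exact le_trans (add_le_add_right ih _)
      (hvec_add_le ha (hv k) fun i => Finset.sum_nonneg fun j _ => hv j i)

namespace Garb

variable {S S' T T' : Type} [Fintype S] [Fintype S'] [Fintype T] [Fintype T']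

/-- Garbling increases every `hvec` functional. -/
theorem hvec_le {L : S → Fin q → ℝ} {L' : S' → Fin q → ℝ} (h : Garb L L')
    (hL' : ∀ s i, 0 ≤ L' s i) {a : Fin q → ℝ} (ha : Expo a) :
    ∑ s, hvec a (L' s) ≤ ∑ s, hvec a (L s) := by
  obtain ⟨K, hK0, hK1, hK⟩ := h
  calc ∑ s', hvec a (L' s') = ∑ s, ∑ s', K s' s * hvec a (L' s') := by
        rw [Finset.sum_comm]; simp [← Finset.sum_mul, hK1]
    _ ≤ ∑ s, hvec a (fun i => ∑ s', K s' s * L' s' i) := by
        refine Finset.sum_le_sum fun s _ => ?_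
        calc ∑ s', K s' s * hvec a (L' s')
            = ∑ s', hvec a (fun i => K s' s * L' s' i) :=
              Finset.sum_congr rfl fun s' _ => (hvec_smul ha (hK0 s' s) (hL' s')).symm
          _ ≤ _ := sum_hvec_le ha _ _ fun s' i => mul_nonneg (hK0 s' s) (hL' s' i)
    _ = _ := Finset.sum_congr rfl fun s _ => by
        congr 1; funext i; exact (hK s i).symm

/-- Rounding: every vector is a nonnegative combination of the prescribed vectors `E`. -/
theorem of_split [Nonempty S] {L : S → Fin q → ℝ} {E : S' → Fin q → ℝ} (c : S → S' → ℝ)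
    (hc : ∀ s s', 0 ≤ c s s') (hL : ∀ s i, L s i = ∑ s', c s s' * E s' i) :
    Garb L (fun s' i => (∑ s, c s s') * E s' i) := by
  classical
  refine ⟨fun s' s => if ∑ t, c t s' = 0 then (if s = Classical.arbitrary S then 1 else 0)
    else c s s' / ∑ t, c t s', fun s' s => ?_, fun s' => ?_, fun s i => ?_⟩
  · dsimp only
    split_ifs <;> first | exact zero_le_one | exact le_rfl |
      exact div_nonneg (hc _ _) (Finset.sum_nonneg fun t _ => hc t s')
  · by_cases h : ∑ t, c t s' = 0
    · simp [h]
    · simp only [if_neg h, ← Finset.sum_div, div_self h]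
  · rw [hL]
    refine Finset.sum_congr rfl fun s' _ => ?_
    by_cases h : ∑ t, c t s' = 0
    · have := (Finset.sum_eq_zero_iff_of_nonneg fun t _ => hc t s').1 h s (Finset.mem_univ s)
      simp [h, this]
    · simp only [if_neg h, ← mul_assoc, div_mul_cancel₀ _ h]

theorem reindex (e : S ≃ S') (L' : S' → Fin q → ℝ) : Garb (fun s => L' (e s)) L' := by
  classical
  refine ⟨fun s' s => if e s = s' then 1 else 0, fun _ _ => by dsimp only; split_ifs <;> norm_num,
    fun s' => ?_, fun s i => ?_⟩
  · rw [Finset.sum_eq_single (e.symm s')] <;> simp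
    intro b hb hb'; exact hb (e.eq_symm_apply.2 hb')
  · simp

/-- Two independent observations. -/
theorem prod {A : S → Fin q → ℝ} {A' : S' → Fin q → ℝ} {B : T → Fin q → ℝ} {B' : T' → Fin q → ℝ}
    (hA : Garb A A') (hB : Garb B B') :
    Garb (fun (s : S × T) i => A s.1 i * B s.2 i) (fun (s : S' × T') i => A' s.1 i * B' s.2 i) := by
  obtain ⟨K, hK0, hK1, hK⟩ := hA
  obtain ⟨J, hJ0, hJ1, hJ⟩ := hB
  refine ⟨fun s' s => K s'.1 s.1 * J s'.2 s.2, fun _ _ => mul_nonneg (hK0 _ _) (hJ0 _ _),
    fun s' => ?_, fun s i => ?_⟩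
  · rw [Fintype.sum_prod_type]; simp [← Finset.mul_sum, hJ1, hK1]
  · simp only [hK, hJ, Finset.sum_mul_sum, Fintype.sum_prod_type]
    exact Finset.sum_congr rfl fun _ _ => Finset.sum_congr rfl fun _ _ => by ring

end Garb

/-- A finite experiment seen from the parent. -/
def upExp (lam : ℝ) {S : Type} (M : S → Fin q → ℝ) (s : S) (i : Fin q) : ℝ :=
  ∑ j, potts q lam i j * M s j

/-- The node whose `d` children observe independent copies of an experiment. -/
def nodeExp (lam : ℝ) (d : ℕ) {S : Type} (M : S → Fin q → ℝ) (s : Fin d → S) (i : Fin q) : ℝ :=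
  ∏ c, upExp lam M (s c) i

theorem dominated_succ {lam : ℝ} {d n : ℕ} {S : Type} [Fintype S] {M : S → Fin q → ℝ}
    (h : Garb (lik (q := q) lam n (regTree d n)) M) :
    Garb (lik (q := q) lam (n + 1) (regTree d (n + 1))) (nodeExp lam d M) :=
  Garb.pi (L' := fun _ => upExp lam M) fun _ => h.channel (potts q lam)

/-- Four children: two squarings, each followed by a rounding. -/
theorem dominated_succ_four {lam : ℝ} {n : ℕ} {S T U : Type} [Fintype S] [Fintype T] [Fintype U]
    {M : S → Fin q → ℝ} {Q : T → Fin q → ℝ} {N : U → Fin q → ℝ}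
    (h : Garb (lik (q := q) lam n (regTree 4 n)) M)
    (h2 : Garb (fun (s : S × S) i => upExp lam M s.1 i * upExp lam M s.2 i) Q)
    (h4 : Garb (fun (s : T × T) i => Q s.1 i * Q s.2 i) N) :
    Garb (lik (q := q) lam (n + 1) (regTree 4 (n + 1))) N := by
  refine ((dominated_succ h).trans ?_).trans ((h2.prod h2).trans h4)
  let e : (Fin 4 → S) ≃ (S × S) × (S × S) :=
    { toFun := fun s => ((s 0, s 1), (s 2, s 3))
      invFun := fun x => ![x.1.1, x.1.2, x.2.1, x.2.2]
      left_inv := fun s => by funext c; fin_cases c <;> rfl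
      right_inv := fun x => rfl }
  convert Garb.reindex e (fun (x : (S × S) × (S × S)) i =>
    upExp lam M x.1.1 i * upExp lam M x.1.2 i * (upExp lam M x.2.1 i * upExp lam M x.2.2 i)) using 1
  funext s i
  simp only [nodeExp, Fin.prod_univ_four, mul_assoc]; rfl

/-- The boundary itself. -/
theorem dominated_zero (lam : ℝ) (t : PTree 0) :
    Garb (lik (q := q) lam 0 t) (fun (s i : Fin q) => if s = i then (1 : ℝ) else 0) :=
  Garb.refl _

/-- Complete information dominates every tree. -/
theorem garb_full (hq : 2 ≤ q) {lam : ℝ} (h0 : -1 / ((q : ℝ) - 1) ≤ lam) (h1 : lam ≤ 1) (n : ℕ)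
    (t : PTree n) : Garb (lik (q := q) lam n t) (fun (s i : Fin q) => if s = i then (1 : ℝ) else 0) := by
  have : NeZero q := ⟨by omega⟩
  exact ⟨fun j s => lik lam n t s j, fun j s => lik_nonneg hq h0 h1 n t s j,
    fun j => sum_lik lam n t j, fun s i => by simp⟩

/-- Deeper observations are garblings of shallower ones. -/
theorem garb_regTree_succ (hq : 2 ≤ q) {lam : ℝ} (h0 : -1 / ((q : ℝ) - 1) ≤ lam) (h1 : lam ≤ 1)
    (d : ℕ) : ∀ n, Garb (lik (q := q) lam (n + 1) (regTree d (n + 1))) (lik lam n (regTree d n))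
  | 0 => garb_full hq h0 h1 1 _
  | n + 1 => Garb.pi fun _ => (garb_regTree_succ hq h0 h1 d n).channel (potts q lam)

theorem garb_regTree_le (hq : 2 ≤ q) {lam : ℝ} (h0 : -1 / ((q : ℝ) - 1) ≤ lam) (h1 : lam ≤ 1)
    (d : ℕ) {N n : ℕ} (h : N ≤ n) :
    Garb (lik (q := q) lam n (regTree d n)) (lik lam N (regTree d N)) := by
  induction n, h using Nat.le_induction with
  | base => exact Garb.refl _
  | succ n _ ih => exact (garb_regTree_succ hq h0 h1 d n).trans ih

/-- An experiment dominating depth `N` bounds the functionals at every larger depth. -/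
theorem hTree_ge_of_dominated (hq : 2 ≤ q) {lam : ℝ} (h0 : -1 / ((q : ℝ) - 1) ≤ lam) (h1 : lam ≤ 1)
    {d N n : ℕ} (hn : N ≤ n) {S : Type} [Fintype S] {M : S → Fin q → ℝ}
    (h : Garb (lik (q := q) lam N (regTree d N)) M) (hM : ∀ s i, 0 ≤ M s i) {a : Fin q → ℝ}
    (ha : Expo a) : ∑ s, hvec a (M s) ≤ hTree a lam n (regTree d n) :=
  ((garb_regTree_le hq h0 h1 d hn).trans h).hvec_le hM ha

end Vale.P154
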