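import Vale.Agent.P154.Lattice.Link

/-!
# A lower bound for the fourth power

The fourth power of the functional of a packed law dominates its interior part in one sector and
three times the projected part excluding the last colour.
-/

noncomputable section

namespace Vale.P154.Lat

open Finset

/-- `l` is the image of `m` under a permutation of the colours. -/
def Img (π : Equiv.Perm (Fin 3)) (l m : List (ℝ × V3)) : Prop :=
  ∀ F : V3 → ℝ, lval l F = lval m (fun v => F fun i => v (π i))

theorem Img.mul {π : Equiv.Perm (Fin 3)} {l m l' m' : List (ℝ × V3)} (h : Img π l m)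
    (h' : Img π l' m') : Img π (lmul l l') (lmul m m') := by
  intro F
  rw [lval_lmul, lval_lmul]
  unfold two
  rw [h]
  congr 1
  funext a
  rw [h']

theorem Img.append {π : Equiv.Perm (Fin 3)} {l m l' m' : List (ℝ × V3)} (h : Img π l m)
    (h' : Img π l' m') : Img π (l ++ l') (m ++ m') := by
  intro F
  rw [lval_append, lval_append, h, h']

theorem Img.sqPart {π : Equiv.Perm (Fin 3)} {l m l' m' : List (ℝ × V3)} (h : Img π l m)
    (h' : Img π l' m') : Img π (Lat.sqPart l l') (Lat.sqPart m m') :=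
  ((h.mul h').append (h.mul h')).append (h'.mul h')

theorem img_realB (C : Par) (E : ℕ) (π : Equiv.Perm (Fin 3)) (g : Fin 3) :
    Img π (realB C E (π.symm g)) (realB C E g) := by
  intro F
  simp [lval, realB, eu_perm]

/-- Removing colour `2` from `l` leaves at least `m`. -/
def Dz (l m : List (ℝ × V3)) : Prop :=
  ∀ G : V3 → ℝ, Conc G → lval m G ≤ lval l (fun v => G fun i => v i * eu 2 i)

theorem Dz.mul {l m l' m' : List (ℝ × V3)} (hl : Pos l) (hm' : Pos m') (h : Dz l m)
    (h' : Dz l' m') : Dz (lmul l l') (lmul m m') := by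
  intro G hG
  rw [lval_lmul, lval_lmul]
  have h1 : two (lval m) (lval m') G ≤
      two (lval l) (lval m') (fun v => G fun i => v i * eu 2 i) := by
    rw [two_comm, two_comm l m']
    unfold two
    refine (finitary_lval hm').mono _ _ fun b hb => ?_
    refine (h _ (hG.mulv hb)).trans' (le_of_eq ?_) |>.trans (le_of_eq ?_)
    · congr 1; funext a; congr 1; funext i; ring
    · congr 1; funext a; congr 1; funext i; ring
  refine h1.trans ?_
  unfold two
  refine (finitary_lval hl).mono _ _ fun a ha => ?_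
  have hw : ∀ i, 0 ≤ a i * eu 2 i := fun i => mul_nonneg (ha i) (eu_nonneg 2 i)
  refine le_trans (le_of_eq ?_) ((h' _ (hG.mulv hw)).trans (le_of_eq ?_))
  · congr 1; funext b; first | rfl | (show G _ = G _; congr 1; funext i; ring)
  · congr 1; funext b; show G _ = G _; congr 1; funext i
    rcases eq_or_ne i 2 with h2 | h2 <;> simp [eu, h2] <;> ring

theorem Dz.append {l m l' m' : List (ℝ × V3)} (h : Dz l m) (h' : Dz l' m') :
    Dz (l ++ l') (m ++ m') := by
  intro G hG
  rw [lval_append, lval_append]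
  exact add_le_add (h G hG) (h' G hG)

theorem Dz.sqPart {l m l' m' : List (ℝ × V3)} (hl : Pos l) (hl' : Pos l') (hm' : Pos m')
    (h : Dz l m) (h' : Dz l' m') : Dz (Lat.sqPart l l') (Lat.sqPart m m') :=
  ((Dz.mul hl hm' h h').append (Dz.mul hl hm' h h')).append (Dz.mul hl' hm' h' h')

/-- All vectors exclude colour `2`. -/
def Killed (l : List (ℝ × V3)) : Prop := ∀ x ∈ l, x.2 2 = 0

theorem killed_sqPart {A B : List (ℝ × V3)} (hB : Killed B) : Killed (sqPart A B) := by
  have e : ∀ A : List (ℝ × V3), Killed (lmul A B) := by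
    intro A z hz
    obtain ⟨x, -, hz⟩ := List.mem_flatMap.1 hz
    obtain ⟨y, hy, rfl⟩ := List.mem_map.1 hz
    simp [hB y hy]
  intro z hz
  rcases List.mem_append.1 hz with h | h
  · rcases List.mem_append.1 h with h | h <;> exact e A z h
  · exact e B z h

theorem Killed.lval_eq {l : List (ℝ × V3)} (h : Killed l) (G : V3 → ℝ) :
    lval l (fun v => G fun i => v i * eu 2 i) = lval l G := by
  refine congrArg List.sum (List.map_congr_left fun x hx => ?_)
  congr 1
  show G _ = G _
  congr 1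
  funext i
  fin_cases i <;> simp [eu, h x hx]

theorem killed_realB (C : Par) (E : ℕ) : Killed (realB C E 2) := by
  intro x hx
  simp only [realB, List.mem_singleton] at hx
  subst hx
  simp [eu]

theorem dz_realB (C : Par) (E : ℕ) : Dz (realB C E 2) (realB C E 2) := by
  intro G _
  rw [(killed_realB C E).lval_eq]

theorem pos_realP {C : Par} (hC : parOk C = true) (S : ℕ) : Pos (realP C S) := by
  intro x hx
  obtain ⟨y, -, rfl⟩ := List.mem_map.1 hx
  exact ⟨by positivity, vP_nonneg hC _ _⟩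

theorem dz_realA {C : Par} (hC : parOk C = true) (S : ℕ) : Dz (realA C S) (realP C S) := by
  intro G hG
  unfold realA realP lval
  rw [listP_eq]
  simp only [List.map_map, Function.comp_def]
  refine List.sum_le_sum fun x hx => ?_
  obtain ⟨hA, hB⟩ := atoms_bound hC hx
  have hy : (powN C (6 * C.K) (2 * x.1.2 + 2 * C.K - x.1.1) : ℝ) =
      vec C 1 x.1.1 x.1.2 1 * ((C.p * C.q : ℕ) : ℝ) ^ (3 * C.K) := by
    simpa only [mul_one] using (vec_powN hC (m := 1) (A := x.1.1) (B := x.1.2)
      (by omega) (by omega)).2.1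
  have hv := vec_nonneg hC 1 x.1.1 x.1.2
  have hk := vP_nonneg hC 1 (x.1.1 + 2 * C.K - x.1.2)
  have e : (fun i => vec C 1 x.1.1 x.1.2 i * eu 2 i) =
      fun i => vec C 1 x.1.1 x.1.2 1 * vP C 1 (x.1.1 + 2 * C.K - x.1.2) i := by
    have hs := (sig_pos hC).ne'
    funext i
    fin_cases i <;> simp [vec, vP, eu, Nat.cast_sub (show x.1.2 ≤ x.1.1 + 2 * C.K by omega),
      ← zpow_add₀ hs] <;> ring_nf
  rw [e, hG.smul _ _ (hv 1) hk, ← mul_assoc]
  refine mul_le_mul_of_nonneg_right ?_ (hG.nn _ hk)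
  rw [div_mul_eq_mul_div]
  refine div_le_div_of_nonneg_right (Nat.cast_div_le.trans (le_of_eq ?_)) (by positivity)
  have hq : ((C.p * C.q : ℕ) : ℝ) ≠ 0 := by
    simp only [parOk, Bool.and_eq_true, Nat.blt_eq] at hC
    obtain ⟨⟨⟨⟨hq, hp⟩, -⟩, -⟩, -⟩ := hC
    exact Nat.cast_ne_zero.2 (Nat.mul_ne_zero (by omega) (by omega))
  rw [Nat.cast_mul, Nat.cast_pow, hy]
  field_simp

theorem fourth_ge {C : Par} (hC : parOk C = true) (S E : ℕ) {G : V3 → ℝ} (hG : Conc G)
    (hGs : Sym G) :
    (dot (arrA C S) (fun i =>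
        sect (vdec C 4 i 0) (vdec C 4 i 1) (vdec C 4 i 2) * G (vdec C 4 i)) +
      3 * dot (arrE C S E) (fun k => G (vP C 4 k))) / 2 ^ (4 * C.P) ≤ four (sval C S E) G := by
  have hA := pos_realA hC S
  have hB := pos_realB C E
  unfold sval
  rw [four_eq_two]
  set A := realA C S with hAdef
  set A2 := lmul A A with hA2def
  set Q : Fin 3 → List (ℝ × V3) := fun g => sqPart A (realB C E g) with hQdef
  set LL := lmul (A ++ realB C E 0 ++ realB C E 1 ++ realB C E 2)
    (A ++ realB C E 0 ++ realB C E 1 ++ realB C E 2) with hLL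
  set L2 := A2 ++ Q 0 ++ Q 1 ++ Q 2 with hL2
  have pA2 : Pos A2 := pos_lmul hA hA
  have pQ : ∀ g, Pos (Q g) := fun g => pos_sqPart hA (hB g)
  have pL2 : Pos L2 := pos_append (pos_append (pos_append pA2 (pQ 0)) (pQ 1)) (pQ 2)
  have pL : Pos (A ++ realB C E 0 ++ realB C E 1 ++ realB C E 2) :=
    pos_append (pos_append (pos_append hA (hB 0)) (hB 1)) (hB 2)
  have h1 : ∀ H : V3 → ℝ, (∀ v, (∀ i, 0 ≤ v i) → 0 ≤ H v) → lval L2 H ≤ lval LL H :=
    fun H hH => sq_ge hA (hB 0) (hB 1) (hB 2) hH
  have h2 : lval (lmul L2 L2) G ≤ two (lval LL) (lval LL) G := by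
    rw [lval_lmul]
    refine (h1 _ fun a ha => lval_nonneg pL2 fun b hb => hG.nn _ fun i =>
      mul_nonneg (ha i) (hb i)).trans ?_
    refine (finitary_lval (pos_lmul pL pL)).mono _ _ fun a ha => ?_
    exact h1 _ fun b hb => hG.nn _ fun i => mul_nonneg (ha i) (hb i)
  have h3 := (sq_ge pA2 (pQ 0) (pQ 1) (pQ 2) hG.nn).trans h2
  simp only [lval_append] at h3
  have hImA : ∀ π : Equiv.Perm (Fin 3), Img π A A := fun π F => (realA_perm hC S F π).symm
  have hedge : ∀ g : Fin 3, lval (sqPart A2 (Q g)) G = lval (sqPart A2 (Q 2)) G := by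
    intro g
    have hi := (((hImA (Equiv.swap g 2)).mul (hImA (Equiv.swap g 2))).sqPart
      ((hImA (Equiv.swap g 2)).sqPart (img_realB C E (Equiv.swap g 2) 2))) G
    rw [show (Equiv.swap g 2).symm 2 = g by simp] at hi
    rw [hi]
    congr 1
    funext v
    exact hGs _ v
  have hperm : ∀ F (π : Equiv.Perm (Fin 3)),
      lval (lmul A2 A2) (fun v => F fun i => v (π i)) = lval (lmul A2 A2) F :=
    fun F π => (((hImA π).mul (hImA π)).mul ((hImA π).mul (hImA π)) F).symm
  have h4 := sector_le (pos_lmul pA2 pA2) (sym_of_perm hperm) hG.nn hGs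
  rw [interior_eq hC] at h4
  have kQ : Killed (Q 2) := killed_sqPart (killed_realB C E)
  have pP := pos_realP hC S
  have hdz : Dz (sqPart A2 (Q 2)) (sqPart (lmul (realP C S) (realP C S))
      (sqPart (realP C S) (realB C E 2))) :=
    Dz.sqPart pA2 (pQ 2) (pos_sqPart pP (hB 2)) (Dz.mul hA pP (dz_realA hC S) (dz_realA hC S))
      (Dz.sqPart hA (hB 2) (hB 2) (dz_realA hC S) (dz_realB C E))
  have h5 := hdz G hG
  rw [(killed_sqPart kQ).lval_eq] at h5
  have hrep := (((rep_realP hC S).mul hC (rep_realP hC S)).sqPart hC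
    ((rep_realP hC S).sqPart hC (rep_realB C E))) G
  rw [hrep] at h5
  rw [hedge 0, hedge 1] at h3
  rw [add_div, mul_div_assoc]
  simp only [arrE] at *
  linarith

end Vale.P154.Lat
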