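import Vale.Agent.P154.Lattice.Dominate

/-!
# Lower bounds by concave homogeneous functionals

`Conc F`: `F` is nonnegative, positively homogeneous and superadditive on nonnegative vectors of
three likelihoods.  A functional `S` is below the children's messages at depth `n` when
`S F ≤ ∑ F (up)` for every such `F`.
-/

noncomputable section

namespace Vale.P154.Lat

open Finset

/-- Likelihood vectors of three colours. -/
abbrev V3 : Type := Fin 3 → ℝ

/-- Nonnegative, homogeneous, superadditive functionals. -/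
structure Conc (F : V3 → ℝ) : Prop where
  nn : ∀ v, (∀ i, 0 ≤ v i) → 0 ≤ F v
  smul : ∀ (r : ℝ) v, 0 ≤ r → (∀ i, 0 ≤ v i) → F (fun i => r * v i) = r * F v
  add : ∀ u v, (∀ i, 0 ≤ u i) → (∀ i, 0 ≤ v i) → F u + F v ≤ F (fun i => u i + v i)

/-- A unit vector. -/
def e1 (i : Fin 3) : V3 := fun j => if j = i then 1 else 0

theorem e1_nonneg (i j : Fin 3) : 0 ≤ e1 i j := by unfold e1; split_ifs <;> norm_num

namespace Conc

variable {F : V3 → ℝ}

theorem zero (hF : Conc F) : F (fun _ => 0) = 0 := by
  have := hF.smul 0 (fun _ => 0) le_rfl fun _ => le_rfl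
  simpa using this

theorem mono (hF : Conc F) {u v : V3} (hu : ∀ i, 0 ≤ u i) (h : ∀ i, u i ≤ v i) : F u ≤ F v := by
  have h1 := hF.add u (fun i => v i - u i) hu fun i => sub_nonneg.2 (h i)
  have h2 := hF.nn (fun i => v i - u i) fun i => sub_nonneg.2 (h i)
  simp only [add_sub_cancel] at h1
  linarith

/-- Superadditivity for a list of weighted vectors below a vector. -/
theorem list_le (hF : Conc F) {α : Type} (l : List α) (w : α → ℝ) (U : α → V3) (P : V3)
    (hw : ∀ a, 0 ≤ w a) (hU : ∀ a i, 0 ≤ U a i)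
    (hP : ∀ i, (l.map fun a => w a * U a i).sum ≤ P i) :
    (l.map fun a => w a * F (U a)).sum ≤ F P := by
  have key : ∀ l : List α, (l.map fun a => w a * F (U a)).sum ≤
      F (fun i => (l.map fun a => w a * U a i).sum) ∧
      ∀ i, 0 ≤ (l.map fun a => w a * U a i).sum := by
    intro l
    induction l with
    | nil => simp [hF.zero]
    | cons a l ih =>
      refine ⟨?_, fun i => ?_⟩
      · simp only [List.map_cons, List.sum_cons]
        rw [← hF.smul _ _ (hw a) (hU a)]
        exact le_trans (add_le_add_right ih.1 _)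
          (hF.add _ _ (fun i => mul_nonneg (hw a) (hU a i)) ih.2)
      · simpa using add_nonneg (mul_nonneg (hw a) (hU a i)) (ih.2 i)
  exact (key l).1.trans (hF.mono (key l).2 hP)

theorem unit_le (hF : Conc F) {v : V3} (hv : ∀ i, 0 ≤ v i) :
    v 0 * F (e1 0) + v 1 * F (e1 1) + v 2 * F (e1 2) ≤ F v := by
  have := hF.list_le [(0 : Fin 3), 1, 2] (fun i => v i) e1 v hv e1_nonneg fun i => by
    fin_cases i <;> simp [e1]
  simpa [add_assoc] using this

/-- Multiplying by a fixed nonnegative vector. -/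
theorem mulv (hF : Conc F) {c : V3} (hc : ∀ i, 0 ≤ c i) : Conc fun v => F fun i => v i * c i where
  nn v hv := hF.nn _ fun i => mul_nonneg (hv i) (hc i)
  smul r v hr hv := by
    have := hF.smul r (fun i => v i * c i) hr fun i => mul_nonneg (hv i) (hc i)
    simpa [mul_assoc] using this
  add u v hu hv := by
    have := hF.add (fun i => u i * c i) (fun i => v i * c i) (fun i => mul_nonneg (hu i) (hc i))
      fun i => mul_nonneg (hv i) (hc i)
    simpa [add_mul] using this

/-- Permuting the colours. -/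
theorem perm (hF : Conc F) (π : Equiv.Perm (Fin 3)) : Conc fun v => F fun i => v (π i) where
  nn v hv := hF.nn _ fun i => hv _
  smul r v hr hv := hF.smul r (fun i => v (π i)) hr fun i => hv _
  add u v hu hv := hF.add (fun i => u (π i)) (fun i => v (π i)) (fun i => hu _) fun i => hv _

end Conc

/-- The average over the permutations of the colours. -/
def avg (F : V3 → ℝ) (v : V3) : ℝ :=
  (∑ π : Equiv.Perm (Fin 3), F fun i => v (π i)) / 6

theorem Conc.avg {F : V3 → ℝ} (hF : Conc F) : Conc (avg F) where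
  nn v hv := div_nonneg (Finset.sum_nonneg fun π _ => hF.nn _ fun i => hv _) (by norm_num)
  smul r v hr hv := by
    unfold Lat.avg
    rw [← mul_div_assoc, Finset.mul_sum]
    exact congrArg (· / 6) (Finset.sum_congr rfl fun π _ => hF.smul r _ hr fun i => hv _)
  add u v hu hv := by
    unfold Lat.avg
    rw [← add_div, ← Finset.sum_add_distrib]
    exact div_le_div_of_nonneg_right (Finset.sum_le_sum fun π _ =>
      hF.add _ _ (fun i => hu _) fun i => hv _) (by norm_num)

/-- Invariance under the colours. -/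
def Sym (F : V3 → ℝ) : Prop := ∀ (π : Equiv.Perm (Fin 3)) v, F (fun i => v (π i)) = F v

theorem sym_avg (F : V3 → ℝ) : Sym (avg F) := by
  intro π v
  unfold avg
  congr 1
  exact Fintype.sum_equiv (Equiv.mulLeft π) _ _ fun σ => by simp [Equiv.Perm.mul_apply]

/-- The channel of proper colourings with three colours. -/
def ch (v : V3) : V3 := fun i => (v 0 + v 1 + v 2 - v i) / 2

theorem ch_nonneg {v : V3} (hv : ∀ i, 0 ≤ v i) (i : Fin 3) : 0 ≤ ch v i := by
  fin_cases i <;> simp [ch] <;> linarith [hv 0, hv 1, hv 2]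

theorem chan_eq_ch (l : V3) : chan (-(1 / 2)) l = ch l := by
  funext i
  unfold chan ch potts
  fin_cases i <;> simp [Fin.sum_univ_three] <;> ring

theorem Conc.ch {F : V3 → ℝ} (hF : Conc F) : Conc fun v => F (ch v) where
  nn v hv := hF.nn _ (ch_nonneg hv)
  smul r v hr hv := by
    rw [← hF.smul r _ hr (ch_nonneg hv)]
    congr 1; funext i; simp only [Lat.ch]; ring
  add u v hu hv := by
    refine (hF.add _ _ (ch_nonneg hu) (ch_nonneg hv)).trans (le_of_eq ?_)
    congr 1; funext i; simp only [Lat.ch]; ring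

/-- What remains of a functional after removing its values at the unit vectors. -/
def rest (G : V3 → ℝ) (v : V3) : ℝ :=
  G v - (v 0 * G (e1 0) + v 1 * G (e1 1) + v 2 * G (e1 2))

theorem Conc.rest {G : V3 → ℝ} (hG : Conc G) : Conc (rest G) where
  nn v hv := sub_nonneg.2 (hG.unit_le hv)
  smul r v hr hv := by simp only [Lat.rest, hG.smul r v hr hv]; ring
  add u v hu hv := by simp only [Lat.rest]; linarith [hG.add u v hu hv]

/-- The four-fold product of a functional. -/
def four (S : (V3 → ℝ) → ℝ) (F : V3 → ℝ) : ℝ :=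
  S fun a => S fun b => S fun c => S fun d => F fun i => a i * b i * c i * d i

/-- `S` is below the messages of the regular tree of depth `n`. -/
def Below (S : (V3 → ℝ) → ℝ) (n : ℕ) : Prop :=
  ∀ F, Conc F → S F ≤ ∑ s : Cfg 3 n (regTree 4 n), F (ch (lik (-(1 / 2)) n (regTree 4 n) s))

theorem adm : -1 / (((3 : ℕ) : ℝ) - 1) ≤ -(1 / 2 : ℝ) ∧ (-(1 / 2 : ℝ)) ≤ 1 := by norm_num

theorem msg_nonneg (n : ℕ) (s : Cfg 3 n (regTree 4 n)) (i : Fin 3) :
    0 ≤ ch (lik (-(1 / 2)) n (regTree 4 n) s) i :=
  ch_nonneg (lik_nonneg (by norm_num) adm.1 adm.2 n _ s) i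

/-- A functional that only sees finitely many nonnegative vectors with nonnegative weights. -/
structure Finitary (S : (V3 → ℝ) → ℝ) : Prop where
  mono : ∀ F G : V3 → ℝ, (∀ v, (∀ i, 0 ≤ v i) → F v ≤ G v) → S F ≤ S G
  sum : ∀ {ι : Type} (t : Finset ι) (F : ι → V3 → ℝ),
    S (fun v => ∑ k ∈ t, F k v) = ∑ k ∈ t, S (F k)

/-- Four children. -/
theorem Below.four {S : (V3 → ℝ) → ℝ} (hS : Finitary S) {n : ℕ} (h : Below S n) {G : V3 → ℝ}
    (hG : Conc G) :
    Lat.four S G ≤ ∑ s : Cfg 3 (n + 1) (regTree 4 (n + 1)),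
      G (lik (-(1 / 2)) (n + 1) (regTree 4 (n + 1)) s) := by
  set L := fun s => ch (lik (-(1 / 2)) n (regTree 4 n) s) with hL
  have hL0 : ∀ s i, 0 ≤ L s i := msg_nonneg n
  unfold Lat.four
  calc S (fun a => S fun b => S fun c => S fun d => G fun i => a i * b i * c i * d i)
      ≤ S (fun a => S fun b => S fun c => ∑ z, G fun i => a i * b i * c i * L z i) := by
        refine hS.mono _ _ fun a ha => hS.mono _ _ fun b hb => hS.mono _ _ fun c hc => ?_
        have hc' : ∀ i, 0 ≤ a i * b i * c i := fun i => mul_nonneg (mul_nonneg (ha i) (hb i)) (hc i)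
        have := h _ (hG.mulv hc')
        simpa [mul_comm (L _ _), mul_assoc, mul_comm, mul_left_comm, hL] using this
    _ = S (fun a => S fun b => ∑ z, S fun c => G fun i => a i * b i * c i * L z i) := by
        simp only [hS.sum]
    _ ≤ S (fun a => S fun b => ∑ z, ∑ y, G fun i => a i * b i * L y i * L z i) := by
        refine hS.mono _ _ fun a ha => hS.mono _ _ fun b hb => Finset.sum_le_sum fun z _ => ?_
        have hc' : ∀ i, 0 ≤ a i * b i * L z i := fun i =>
          mul_nonneg (mul_nonneg (ha i) (hb i)) (hL0 z i)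
        have := h _ (hG.mulv hc')
        simpa [mul_assoc, mul_comm, mul_left_comm, hL] using this
    _ = S (fun a => ∑ z, ∑ y, S fun b => G fun i => a i * b i * L y i * L z i) := by
        simp only [hS.sum]
    _ ≤ S (fun a => ∑ z, ∑ y, ∑ x, G fun i => a i * L x i * L y i * L z i) := by
        refine hS.mono _ _ fun a ha => Finset.sum_le_sum fun z _ => Finset.sum_le_sum fun y _ => ?_
        have hc' : ∀ i, 0 ≤ a i * L y i * L z i := fun i =>
          mul_nonneg (mul_nonneg (ha i) (hL0 y i)) (hL0 z i)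
        have := h _ (hG.mulv hc')
        simpa [mul_assoc, mul_comm, mul_left_comm, hL] using this
    _ = ∑ z, ∑ y, ∑ x, S fun a => G fun i => a i * L x i * L y i * L z i := by
        simp only [hS.sum]
    _ ≤ ∑ z, ∑ y, ∑ x, ∑ w, G fun i => L w i * L x i * L y i * L z i := by
        refine Finset.sum_le_sum fun z _ => Finset.sum_le_sum fun y _ => Finset.sum_le_sum fun x _ => ?_
        have hc' : ∀ i, 0 ≤ L x i * L y i * L z i := fun i =>
          mul_nonneg (mul_nonneg (hL0 x i) (hL0 y i)) (hL0 z i)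
        have := h _ (hG.mulv hc')
        simpa [mul_assoc, mul_comm, mul_left_comm, hL] using this
    _ = _ := by
        let C := Cfg 3 n (regTree 4 n)
        let e : (Fin 4 → C) ≃ C × C × C × C :=
          { toFun := fun s => (s 3, s 2, s 1, s 0)
            invFun := fun x => ![x.2.2.2, x.2.2.1, x.2.1, x.1]
            left_inv := fun s => by funext c; fin_cases c <;> rfl
            right_inv := fun x => rfl }
        show _ = ∑ s : Fin 4 → C, G (lik (-(1 / 2)) (n + 1) (regTree 4 (n + 1)) s)
        rw [← e.symm.sum_comp]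
        simp only [Fintype.sum_prod_type]
        refine Finset.sum_congr rfl fun z _ => Finset.sum_congr rfl fun y _ =>
          Finset.sum_congr rfl fun x _ => Finset.sum_congr rfl fun w _ => ?_
        congr 1
        funext i
        show _ = ∏ c : Fin 4, chan (-(1 / 2)) (lik (-(1 / 2)) n (regTree 4 n) (e.symm (z, y, x, w) c)) i
        rw [Fin.prod_univ_four, chan_eq_ch, chan_eq_ch, chan_eq_ch, chan_eq_ch]
        rfl

theorem lik_col (n : ℕ) (i : Fin 3) :
    ∑ s : Cfg 3 n (regTree 4 n), lik (-(1 / 2)) n (regTree 4 n) s i = 1 :=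
  sum_lik _ n _ i

/-- One generation: for a symmetric `F`, the kept products and the complement on edges. -/
theorem Below.step {S : (V3 → ℝ) → ℝ} (hS : Finitary S) {n : ℕ} (h : Below S n) {F : V3 → ℝ}
    (hF : Conc F) (hs : Sym F) :
    Lat.four S (rest fun v => F (ch v)) + 3 * F (ch (e1 0)) ≤
      ∑ s : Cfg 3 (n + 1) (regTree 4 (n + 1)),
        F (ch (lik (-(1 / 2)) (n + 1) (regTree 4 (n + 1)) s)) := by
  have := h.four hS hF.ch.rest
  have e : ∀ i : Fin 3, F (ch (e1 i)) = F (ch (e1 0)) := by
    intro i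
    rw [← hs (Equiv.swap 0 i) (ch (e1 i))]
    congr 1
    funext j
    fin_cases i <;> fin_cases j <;> simp [ch, e1, Equiv.swap_apply_def]
  simp only [Lat.rest, e, Finset.sum_sub_distrib, Finset.sum_add_distrib, ← Finset.sum_mul, lik_col,
    one_mul] at this
  linarith

theorem Below.of_sym {S : (V3 → ℝ) → ℝ} {n : ℕ}
    (hsym : ∀ F, Conc F → S F = S (avg F))
    (h : ∀ F, Conc F → Sym F →
      S F ≤ ∑ s : Cfg 3 n (regTree 4 n), F (ch (lik (-(1 / 2)) n (regTree 4 n) s))) :
    Below S n := by
  intro F hF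
  rw [hsym F hF]
  refine (h _ hF.avg (sym_avg F)).trans (le_of_eq ?_)
  unfold Lat.avg
  rw [← Finset.sum_div, Finset.sum_comm]
  have e : ∀ π : Equiv.Perm (Fin 3), ∑ s : Cfg 3 n (regTree 4 n),
      F (fun i => ch (lik (-(1 / 2)) n (regTree 4 n) s) (π i)) =
      ∑ s : Cfg 3 n (regTree 4 n), F (ch (lik (-(1 / 2)) n (regTree 4 n) s)) := by
    intro π
    have := sum_lik_perm (-(1 / 2)) π n (regTree 4 n) (fun v => F (ch v))
    rw [← this]
    refine Finset.sum_congr rfl fun s _ => congrArg F ?_
    funext i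
    have := chan_comp_perm (-(1 / 2)) π (lik (-(1 / 2)) n (regTree 4 n) s) i
    rw [chan_eq_ch, chan_eq_ch] at this
    exact this.symm
  simp only [e, Finset.sum_const, Finset.card_univ, Fintype.card_perm, Fintype.card_fin,
    nsmul_eq_mul]
  norm_num [Nat.factorial]

/-- The conclusion: a lower bound for the affinities of all deeper messages. -/
theorem Below.hChan_ge {S : (V3 → ℝ) → ℝ} {N : ℕ} (h : Below S N) {a : V3} (ha : Expo a) {n : ℕ}
    (hn : N ≤ n) : S (hvec a) ≤ hChan a (-(1 / 2)) n (regTree 4 n) := by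
  have hc : Conc (hvec a) :=
    ⟨fun v hv => hvec_nonneg a hv, fun r v hr hv => hvec_smul ha hr hv,
      fun u v hu hv => hvec_add_le ha hu hv⟩
  refine (h _ hc).trans ?_
  have h1 := ((garb_regTree_le (q := 3) (by norm_num) adm.1 adm.2 4 hn).channel
    (potts 3 (-(1 / 2)))).hvec_le (fun s i => Finset.sum_nonneg fun j _ => mul_nonneg
      (potts_nonneg (by norm_num) adm.1 adm.2 i j) (lik_nonneg (by norm_num) adm.1 adm.2 N _ s j)) ha
  refine le_trans (le_of_eq ?_) h1
  exact Finset.sum_congr rfl fun s _ => congrArg (hvec a) (chan_eq_ch _).symm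

end Vale.P154.Lat
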