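import Vale.Agent.P154.Lattice.Vec

/-!
# The fourth power read from packed products

The interior part is a four-fold convolution of the weighted positions; the part excluding the
last colour is represented by lists of digits on the edge.
-/

noncomputable section

namespace Vale.P154.Lat

open Finset

theorem length_addL : ∀ p q : List ℕ, (addL p q).length = max p.length q.length
  | [], q => by simp [addL]
  | _ :: _, [] => by simp [addL]
  | a :: p, b :: q => by simp [addL, length_addL p q, Nat.add_max_add_right]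

theorem length_convL : ∀ p q : List ℕ, (convL p q).length ≤ p.length + q.length
  | [], q => by simp [convL]
  | a :: p, q => by
    have := length_convL p q
    simp only [convL, length_addL, List.length_map, List.length_cons]
    omega

theorem length_ldense : ∀ (l : List (ℕ × ℕ)) (d : ℕ), (∀ x ∈ l, x.1 < 2 ^ d) →
    (ldense l).length ≤ 2 ^ d
  | [], d, _ => by simp [ldense]
  | (n, w) :: l, d, h => by
    have h1 : n < 2 ^ d := h (n, w) List.mem_cons_self
    have h2 := length_ldense l d fun x hx => h x (List.mem_cons_of_mem _ hx)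
    simp only [ldense, length_addL, List.length_append, List.length_replicate, List.length_cons,
      List.length_nil]
    omega

theorem dot_one : ∀ l : List ℕ, dot l (fun _ => 1) = (l.sum : ℝ)
  | [] => by simp [dot]
  | a :: l => by simp [dot, dot_one l]

theorem dot_const_mul : ∀ (l : List ℕ) (c : ℝ) (F : ℕ → ℝ), dot l (fun i => c * F i) = c * dot l F
  | [], c, F => by simp [dot]
  | a :: l, c, F => by simp [dot, dot_const_mul l]; ring

theorem dot_div (l : List ℕ) (c : ℝ) (F : ℕ → ℝ) : dot l (fun i => F i / c) = dot l F / c := by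
  simp only [div_eq_inv_mul, dot_const_mul]

theorem ldot_congr : ∀ {l : List (ℕ × ℕ)} {F G : ℕ → ℝ}, (∀ x ∈ l, F x.1 = G x.1) →
    ldot l F = ldot l G
  | [], F, G, _ => rfl
  | (n, w) :: l, F, G, h => by
    have := ldot_congr (l := l) (F := F) (G := G) fun x hx => h x (List.mem_cons_of_mem _ hx)
    have := h (n, w) List.mem_cons_self
    simp_all [ldot]

theorem ldot_const_mul : ∀ (l : List (ℕ × ℕ)) (c : ℝ) (F : ℕ → ℝ),
    ldot l (fun i => c * F i) = c * ldot l F
  | [], c, F => by simp [ldot]
  | (n, w) :: l, c, F => by simp [ldot, ldot_const_mul l]; ring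

theorem listA_eq (C : Par) (S : ℕ) :
    listA C S = (atoms C S).map fun x => (posW C x.1.1 x.1.2, x.2) := by
  simp [listA, atoms, List.map_flatMap, Function.comp_def]

theorem listP_eq (C : Par) (S : ℕ) :
    listP C S = (atoms C S).map fun x => (x.1.1 + 2 * C.K - x.1.2,
      x.2 * powN C (6 * C.K) (2 * x.1.2 + 2 * C.K - x.1.1) / (C.p * C.q) ^ (3 * C.K)) := by
  simp [listP, atoms, List.map_flatMap, Function.comp_def]

theorem listA_mem {C : Par} (hC : parOk C = true) {S : ℕ} {x : ℕ × ℕ} (hx : x ∈ listA C S) :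
    x.1 % (8 * C.K + 1) ≤ 2 * C.K ∧ x.1 < 2 ^ C.dA := by
  rw [listA_eq] at hx
  obtain ⟨y, hy, rfl⟩ := List.mem_map.1 hx
  obtain ⟨h1, h2⟩ := atoms_bound hC hy
  simp only [parOk, Bool.and_eq_true, Nat.ble_eq] at hC
  refine ⟨?_, lt_of_lt_of_le ?_ hC.1.2⟩
  · rw [posW, Nat.mul_comm, Nat.mul_add_mod]
    exact (Nat.mod_le _ _).trans h2
  · have := Nat.mul_le_mul_right (8 * C.K + 1) h1
    simp only [posW]
    omega

theorem lval_realA_eq {C : Par} (hC : parOk C = true) (S : ℕ) (F : V3 → ℝ) :
    lval (realA C S) F = ldot (listA C S) (fun i => F (vdec C 1 i)) / 2 ^ C.P := by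
  have key : ∀ l : List ((ℕ × ℕ) × ℕ), (∀ x ∈ l, x.1.2 ≤ 2 * C.K) →
      lval (l.map fun x => ((x.2 : ℝ) / 2 ^ C.P, vec C 1 x.1.1 x.1.2)) F =
        ldot (l.map fun x => (posW C x.1.1 x.1.2, x.2)) (fun i => F (vdec C 1 i)) / 2 ^ C.P := by
    intro l
    induction l with
    | nil => simp [lval, ldot]
    | cons a l ih =>
      intro h
      have e : vdec C 1 (posW C a.1.1 a.1.2) = vec C 1 a.1.1 a.1.2 := by
        have ha := h a (by simp)
        unfold vdec posW
        rw [Nat.mul_comm, Nat.mul_add_div (by omega), Nat.mul_add_mod,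
          Nat.div_eq_of_lt (by omega), Nat.mod_eq_of_lt (by omega), add_zero]
      have := ih fun x hx => h x (by simp [hx])
      simp only [lval, List.map_cons, List.sum_cons, ldot, e] at this ⊢
      rw [this]; ring
  rw [listA_eq]
  exact key _ fun x hx => (atoms_bound hC hx).2

/-- The dense interior weights. -/
def denseA (C : Par) (S : ℕ) : List ℕ := ldense (listA C S)

/-- The four-fold interior convolution. -/
def arrA (C : Par) (S : ℕ) : List ℕ :=
  convL (convL (denseA C S) (denseA C S)) (convL (denseA C S) (denseA C S))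

theorem interior_eq {C : Par} (hC : parOk C = true) (S : ℕ) (G : V3 → ℝ) :
    lval (lmul (lmul (realA C S) (realA C S)) (lmul (realA C S) (realA C S))) G =
      dot (arrA C S) (fun i => G (vdec C 4 i)) / 2 ^ (4 * C.P) := by
  have hD : ∀ F, dot (denseA C S) F = ldot (listA C S) F := fun F =>
    dot_ldense _ F
  have e : ∀ i ∈ listA C S, ∀ j ∈ listA C S, ∀ k ∈ listA C S, ∀ l ∈ listA C S,
      (fun a => vdec C 1 i.1 a * vdec C 1 j.1 a * (vdec C 1 k.1 a * vdec C 1 l.1 a)) =
        vdec C 4 (i.1 + j.1 + (k.1 + l.1)) := by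
    intro i hi j hj k hk l hl
    have h1 := (listA_mem hC hi).1
    have h2 := (listA_mem hC hj).1
    have h3 := (listA_mem hC hk).1
    have h4 := (listA_mem hC hl).1
    have eij : ((i.1 + j.1) % (8 * C.K + 1)) =
        i.1 % (8 * C.K + 1) + j.1 % (8 * C.K + 1) := Nat.add_mod_of_add_mod_lt (by omega)
    have ekl : ((k.1 + l.1) % (8 * C.K + 1)) =
        k.1 % (8 * C.K + 1) + l.1 % (8 * C.K + 1) := Nat.add_mod_of_add_mod_lt (by omega)
    rw [← vdec_mul (m := 2) (n := 2) hC (by omega), ← vdec_mul (m := 1) (n := 1) hC (by omega),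
      ← vdec_mul (m := 1) (n := 1) hC (by omega)]
  simp only [lval_lmul, two, lval_realA_eq hC, ← dot_div]
  simp only [arrA, dot_convL, hD]
  simp only [div_eq_inv_mul, ← ldot_const_mul]
  refine ldot_congr fun i hi => ldot_congr fun j hj => ldot_congr fun k hk =>
    ldot_congr fun l hl => ?_
  rw [e i hi j hj k hk l hl, show 4 * C.P = C.P + C.P + C.P + C.P by ring]
  simp only [pow_add, mul_inv]
  ring

/-- A list of vectors on the edge with its digits. -/
def Rep (C : Par) (R : List ℕ) (m : ℕ) (l : List (ℝ × V3)) : Prop :=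
  ∀ H : V3 → ℝ, lval l H = dot R (fun k => H (vP C m k)) / 2 ^ (m * C.P)

theorem Rep.mul {C : Par} (hC : parOk C = true) {R R' : List ℕ} {m m' : ℕ}
    {l l' : List (ℝ × V3)} (h : Rep C R m l) (h' : Rep C R' m' l') :
    Rep C (convL R R') (m + m') (lmul l l') := by
  intro H
  rw [lval_lmul, dot_convL]
  unfold two
  rw [h]
  simp only [h' _, vP_mul hC, dot_div, add_mul, pow_add, div_div]
  rw [mul_comm ((2 : ℝ) ^ (m' * C.P))]

theorem Rep.append {C : Par} {R R' : List ℕ} {m : ℕ} {l l' : List (ℝ × V3)} (h : Rep C R m l)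
    (h' : Rep C R' m l') : Rep C (addL R R') m (l ++ l') := by
  intro H
  rw [lval_append, h, h', dot_addL, add_div]

/-- The digits of the part excluding one colour in a square. -/
def sqL (R T : List ℕ) : List ℕ := addL (addL (convL R T) (convL R T)) (convL T T)

theorem Rep.sqPart {C : Par} (hC : parOk C = true) {R T : List ℕ} {m : ℕ}
    {l l' : List (ℝ × V3)} (h : Rep C R m l) (h' : Rep C T m l') :
    Rep C (sqL R T) (m + m) (Lat.sqPart l l') :=
  ((h.mul hC h').append (h.mul hC h')).append (h'.mul hC h')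

/-- The projected vectors with their weights. -/
def realP (C : Par) (S : ℕ) : List (ℝ × V3) :=
  (listP C S).map fun x => ((x.2 : ℝ) / 2 ^ C.P, vP C 1 x.1)

/-- The dense projected weights. -/
def denseP (C : Par) (S : ℕ) : List ℕ := ldense (listP C S)

/-- The digits of one edge vector. -/
def denseE (C : Par) (E : ℕ) : List ℕ := List.replicate (2 * C.K) 0 ++ [E]

theorem listP_mem {C : Par} (hC : parOk C = true) {S : ℕ} {x : ℕ × ℕ} (hx : x ∈ listP C S) :
    x.1 < 2 ^ C.dP := by
  rw [listP_eq] at hx
  obtain ⟨y, hy, rfl⟩ := List.mem_map.1 hx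
  obtain ⟨h1, h2⟩ := atoms_bound hC hy
  simp only [parOk, Bool.and_eq_true, Nat.ble_eq] at hC
  exact lt_of_lt_of_le (show y.1.1 + 2 * C.K - y.1.2 < 4 * C.K + 1 by omega) hC.2

theorem rep_realP {C : Par} (hC : parOk C = true) (S : ℕ) :
    Rep C (denseP C S) 1 (realP C S) := by
  intro H
  rw [denseP, dot_ldense, one_mul]
  unfold realP
  induction listP C S with
  | nil => simp [lval, ldot]
  | cons a l ih =>
    simp only [lval, List.map_cons, List.sum_cons, ldot] at ih ⊢
    rw [ih]; ring

theorem vP_center (C : Par) : vP C 1 (2 * C.K) = eu 2 := by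
  funext i
  fin_cases i <;> simp [vP, eu] <;> ring_nf <;> simp

theorem rep_realB (C : Par) (E : ℕ) : Rep C (denseE C E) 1 (realB C E 2) := by
  intro H
  simp only [denseE, dot_append, dot_replicate_zero, dot, List.length_replicate, lval, realB,
    List.map_cons, List.map_nil, List.sum_cons, List.sum_nil, one_mul, add_zero, zero_add,
    vP_center]
  ring

/-- The edge part of the fourth power. -/
def arrE (C : Par) (S E : ℕ) : List ℕ :=
  sqL (convL (denseP C S) (denseP C S)) (sqL (denseP C S) (denseE C E))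

theorem pack_denseE (C : Par) (K E : ℕ) :
    pack K (denseE C E) = Nat.shiftLeft E (K * (2 * C.K)) := by
  simp [denseE, pack_append, pack_replicate_zero, pack, Nat.shiftLeft_eq', Nat.shiftLeft_eq,
    mul_comm]

theorem pack_sqL (K : ℕ) (R T : List ℕ) :
    pack K (sqL R T) = 2 * (pack K R * pack K T) + pack K T * pack K T := by
  simp only [sqL, pack_addL, pack_convL]; ring

theorem sum_sqL (R T : List ℕ) : (sqL R T).sum = 2 * (R.sum * T.sum) + T.sum * T.sum := by
  simp only [sqL, sum_addL, sum_convL]; ring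

theorem pack_arrE (C : Par) (S E : ℕ) : pack C.bA (arrE C S E) = powE C S E := by
  simp [arrE, powE, pack_sqL, pack_convL, pack_denseE, denseP, pack_ldense]

theorem sum_arrE (C : Par) (S E : ℕ) : (arrE C S E).sum = sumE C S E := by
  simp [arrE, sumE, sum_sqL, sum_convL, denseP, denseE, sum_ldense]

theorem length_arrE {C : Par} (hC : parOk C = true) (S E : ℕ) :
    (arrE C S E).length ≤ 2 ^ (C.dP + 2) := by
  have hC' := hC
  simp only [parOk, Bool.and_eq_true, Nat.ble_eq] at hC
  have h4 := hC.2
  have hP : (denseP C S).length ≤ 2 ^ C.dP :=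
    length_ldense _ _ fun x hx => listP_mem hC' hx
  have hE : (denseE C E).length = 2 * C.K + 1 := by simp [denseE]
  have hsq : ∀ R T : List ℕ, ∀ b, R.length ≤ b → T.length ≤ b → (sqL R T).length ≤ 2 * b := by
    intro R T b h1 h2
    have := length_convL R T
    have := length_convL T T
    simp only [sqL, length_addL]
    omega
  have h1 := length_convL (denseP C S) (denseP C S)
  have h2 := hsq (denseP C S) (denseE C E) (2 ^ C.dP) hP (by omega)
  have h3 := hsq (convL (denseP C S) (denseP C S)) (sqL (denseP C S) (denseE C E))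
    (2 * 2 ^ C.dP) (by omega) h2
  rw [pow_add]
  unfold arrE
  omega

theorem pack_arrA (C : Par) (S : ℕ) : pack C.bA (arrA C S) = powA C S := by
  simp only [arrA, powA, pack_convL, denseA, pack_ldense]; ring

theorem sum_arrA (C : Par) (S : ℕ) :
    (arrA C S).sum = lsum (listA C S) ^ 4 := by
  simp only [arrA, sum_convL, denseA, sum_ldense]; ring

theorem length_arrA {C : Par} (hC : parOk C = true) (S : ℕ) : (arrA C S).length ≤ 2 ^ (C.dA + 2) := by
  have h : (denseA C S).length ≤ 2 ^ C.dA :=
    length_ldense _ _ fun x hx => (listA_mem hC hx).2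
  have h1 := length_convL (denseA C S) (denseA C S)
  have h2 := length_convL (convL (denseA C S) (denseA C S)) (convL (denseA C S) (denseA C S))
  rw [pow_add]
  unfold arrA
  omega

end Vale.P154.Lat
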