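import Mathlib.Data.Nat.Bitwise
import Vale.Agent.P154.Lattice.Sparse
import Vale.Agent.P154.Pois.DE.Comp

/-!
# Cropping and rescaling of a packed law

One bitwise `and` with a mask followed by one shift keeps the digits inside a window and divides
each of them by `2 ^ P`, rounding down.
-/

namespace Vale.P154.Lat

open Vale.P154.PD (crop geom rectMask)

/-- The digits of `crop` (used in proofs only). -/
def cropL (P : ℕ) : List ℕ → List ℕ → List ℕ
  | a :: p, b :: m => (if b = 0 then 0 else a / 2 ^ P) :: cropL P p m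
  | _, _ => []

/-- The rows of a window, repeated (used in proofs only). -/
def rowsL (r : List ℕ) : ℕ → List ℕ
  | 0 => []
  | n + 1 => r ++ rowsL r n

/-- One row of a window (used in proofs only). -/
def mrowL (K P W lo hi : ℕ) : List ℕ :=
  List.replicate lo 0 ++ List.replicate (hi + 1 - lo) (2 ^ K - 2 ^ P) ++
    List.replicate (W - (lo + (hi + 1 - lo))) 0

/-- The digits of `rectMask` (used in proofs only). -/
def rectList (K P W lo hi rlo rhi : ℕ) : List ℕ :=
  List.replicate (W * rlo) 0 ++ rowsL (mrowL K P W lo hi) (rhi + 1 - rlo)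

variable {K P : ℕ}

theorem land_pack {a b A B : ℕ} (ha : a < 2 ^ K) (hb : b < 2 ^ K) :
    (a + 2 ^ K * A) &&& (b + 2 ^ K * B) = (a &&& b) + 2 ^ K * (A &&& B) := by
  have hab : a &&& b < 2 ^ K := lt_of_le_of_lt Nat.and_le_left ha
  refine Nat.eq_of_testBit_eq fun j => ?_
  rw [Nat.testBit_and, add_comm a, add_comm b, add_comm (a &&& b),
    Nat.testBit_two_pow_mul_add _ ha, Nat.testBit_two_pow_mul_add _ hb,
    Nat.testBit_two_pow_mul_add _ hab]
  split_ifs <;> simp [Nat.testBit_and]

theorem land_high {a : ℕ} (hPK : P ≤ K) (ha : a < 2 ^ K) :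
    a &&& (2 ^ K - 2 ^ P) = 2 ^ P * (a / 2 ^ P) := by
  have e : 2 ^ K - 2 ^ P = 2 ^ P * (2 ^ (K - P) - 1) := by
    rw [Nat.mul_sub, mul_one, ← pow_add, Nat.add_sub_cancel' hPK]
  refine Nat.eq_of_testBit_eq fun j => ?_
  rw [Nat.testBit_and, e, Nat.testBit_two_pow_mul, Nat.testBit_two_pow_mul,
    Nat.testBit_two_pow_sub_one, Nat.testBit_div_two_pow]
  rcases lt_or_ge j P with hj | hj
  · simp [not_le.2 hj]
  · rcases lt_or_ge (j - P) (K - P) with hk | hk
    · simp [hj, hk, Nat.sub_add_cancel hj]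
    · have : a.testBit j = false :=
        Nat.testBit_lt_two_pow (lt_of_lt_of_le ha (Nat.pow_le_pow_right (by norm_num) (by omega)))
      simp [hj, not_lt.2 hk, Nat.sub_add_cancel hj, this]

theorem pack_land (hPK : P ≤ K) : ∀ p m : List ℕ, (∀ a ∈ p, a < 2 ^ K) →
    (∀ b ∈ m, b = 0 ∨ b = 2 ^ K - 2 ^ P) →
    pack K p &&& pack K m = 2 ^ P * pack K (cropL P p m)
  | [], m, _, _ => by simp [pack, cropL]
  | a :: p, [], _, _ => by simp [pack, cropL]
  | a :: p, b :: m, hp, hm => by
    have ha := hp a (by simp)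
    have hb : b < 2 ^ K := by
      rcases hm b (by simp) with rfl | rfl
      · exact Nat.two_pow_pos K
      · exact Nat.sub_lt (Nat.two_pow_pos K) (Nat.two_pow_pos P)
    rw [cropL, pack_cons, pack_cons, pack_cons, land_pack ha hb,
      pack_land hPK p m (fun x hx => hp x (by simp [hx])) fun x hx => hm x (by simp [hx])]
    have e : a &&& b = 2 ^ P * if b = 0 then 0 else a / 2 ^ P := by
      split_ifs with h
      · simp [h]
      · rw [(hm b (by simp)).resolve_left h, land_high hPK ha]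
    rw [e]
    ring

theorem crop_eq (hPK : P ≤ K) {p m : List ℕ} (hp : ∀ a ∈ p, a < 2 ^ K)
    (hm : ∀ b ∈ m, b = 0 ∨ b = 2 ^ K - 2 ^ P) :
    crop P (pack K p) (pack K m) = pack K (cropL P p m) := by
  show (pack K p &&& pack K m) >>> P = _
  rw [pack_land hPK p m hp hm, Nat.shiftRight_eq_div_pow,
    Nat.mul_div_cancel_left _ (Nat.two_pow_pos P)]

theorem cropL_spec : ∀ p m : List ℕ,
    (cropL P p m).length ≤ p.length ∧ (cropL P p m).sum * 2 ^ P ≤ p.sum ∧
      ((∀ a ∈ p, a < 2 ^ K) → ∀ a ∈ cropL P p m, a < 2 ^ K) ∧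
      ∀ i, (cropL P p m).getD i 0 ≠ 0 → m.getD i 0 ≠ 0
  | [], m => by simp [cropL]
  | a :: p, [] => by simp [cropL]
  | a :: p, b :: m => by
    obtain ⟨h1, h2, h3, h4⟩ := cropL_spec p m
    refine ⟨by simp [cropL, h1], ?_, fun hp x hx => ?_, fun i => ?_⟩
    · simp only [cropL, List.sum_cons, add_mul]
      refine add_le_add ?_ h2
      split_ifs with h
      · simp
      · exact Nat.div_mul_le_self a _
    · simp only [cropL, List.mem_cons] at hx
      rcases hx with rfl | hx
      · split_ifs with h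
        · exact Nat.two_pow_pos K
        · exact lt_of_le_of_lt (Nat.div_le_self _ _) (hp a (by simp))
      · exact h3 (fun y hy => hp y (by simp [hy])) x hx
    · cases i with
      | zero => by_cases h : b = 0 <;> simp [cropL, h]
      | succ i => simpa [cropL] using h4 i

theorem dot_cropL_le : ∀ (p m : List ℕ) (F : ℕ → ℝ), (∀ i, 0 ≤ F i) →
    (2 : ℝ) ^ P * dot (cropL P p m) F ≤ dot p fun i => if m.getD i 0 = 0 then 0 else F i
  | [], m, F, _ => by simp [cropL, dot]
  | a :: p, [], F, _ => by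
    have : ∀ (l : List ℕ), dot l (fun _ => (0 : ℝ)) = 0 := fun l => by
      induction l with
      | nil => rfl
      | cons b l ih => simp [dot, ih]
    simp [cropL, dot, this]
  | a :: p, b :: m, F, hF => by
    have ih := dot_cropL_le p m (fun i => F (i + 1)) fun i => hF _
    simp only [cropL, dot, mul_add, List.getD_cons_succ, List.getD_cons_zero]
    refine add_le_add ?_ ih
    split_ifs with h
    · simp
    · rw [← mul_assoc]
      refine mul_le_mul_of_nonneg_right ?_ (hF 0)
      exact_mod_cast Nat.mul_div_le a (2 ^ P)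

/-- Only the values on the nonzero digits matter. -/
theorem dot_congr : ∀ (l : List ℕ) (F G : ℕ → ℝ), (∀ i, l.getD i 0 ≠ 0 → F i = G i) →
    dot l F = dot l G
  | [], _, _, _ => rfl
  | a :: l, F, G, h => by
    simp only [dot]
    congr 1
    · by_cases ha : a = 0
      · simp [ha]
      · rw [h 0 (by simpa using ha)]
    · exact dot_congr l _ _ fun i hi => h (i + 1) (by simpa using hi)

theorem dot_mono : ∀ (l : List ℕ) (F G : ℕ → ℝ), (∀ i, F i ≤ G i) → dot l F ≤ dot l G
  | [], _, _, _ => le_rfl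
  | a :: l, F, G, h =>
    add_le_add (mul_le_mul_of_nonneg_left (h 0) (Nat.cast_nonneg a))
      (dot_mono l _ _ fun i => h _)

/-- Cropping a packed law is below the masked law. -/
theorem crop_spec (hPK : P ≤ K) {p m : List ℕ} (hp : ∀ a ∈ p, a < 2 ^ K)
    (hm : ∀ b ∈ m, b = 0 ∨ b = 2 ^ K - 2 ^ P) :
    ∃ L : List ℕ, pack K L = crop P (pack K p) (pack K m) ∧ (∀ a ∈ L, a < 2 ^ K) ∧
      L.length ≤ p.length ∧ L.sum * 2 ^ P ≤ p.sum ∧
      ∀ F : ℕ → ℝ, (∀ i, 0 ≤ F i) →
        (2 : ℝ) ^ P * dot L F ≤ dot p (fun i => if m.getD i 0 = 0 then 0 else F i) ∧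
        dot L F = dot L (fun i => if m.getD i 0 = 0 then 0 else F i) := by
  obtain ⟨h1, h2, h3, h4⟩ := cropL_spec (P := P) (K := K) p m
  refine ⟨_, (crop_eq hPK hp hm).symm, h3 hp, h1, h2, fun F hF => ⟨dot_cropL_le p m F hF, ?_⟩⟩
  exact dot_congr _ _ _ fun i hi => (if_neg (h4 i hi)).symm

theorem geom_eq {b n S : ℕ} (hb : 0 < b) (h : (2 ^ b - 1) * S = 2 ^ (b * n) - 1) : geom b n = S := by
  have : 0 < 2 ^ b - 1 := Nat.sub_pos_of_lt (Nat.one_lt_two_pow hb.ne')
  simp only [geom]
  rw [← h, Nat.mul_div_cancel_left _ this]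

theorem geom_rows {W : ℕ} {r : List ℕ} (hr : r.length = W) : ∀ n,
    (2 ^ (K * W) - 1) * pack K (rowsL r n) = (2 ^ (K * W * n) - 1) * pack K r
  | 0 => by simp [rowsL, pack]
  | n + 1 => by
    rw [rowsL, pack_append, hr, mul_add, Nat.mul_left_comm, geom_rows hr n, ← mul_assoc, ← add_mul,
      Nat.mul_succ, pow_add]
    congr 1
    have h1 := Nat.two_pow_pos (K * W)
    have h2 := Nat.two_pow_pos (K * W * n)
    have h3 : 2 ^ (K * W) ≤ 2 ^ (K * W) * 2 ^ (K * W * n) := Nat.le_mul_of_pos_right _ h2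
    rw [Nat.mul_sub, mul_one, mul_comm (2 ^ (K * W * n))]
    omega

theorem pack_rowsL {W : ℕ} {r : List ℕ} (hr : r.length = W) (hb : 0 < K * W) (n : ℕ) :
    pack K (rowsL r n) = geom (K * W) n * pack K r := by
  have h := geom_rows (K := K) hr n
  have h1 : 0 < 2 ^ (K * W) - 1 := Nat.sub_pos_of_lt (Nat.one_lt_two_pow hb.ne')
  obtain ⟨T, hT⟩ : 2 ^ (K * W) - 1 ∣ 2 ^ (K * W * n) - 1 := by
    have := Nat.sub_one_dvd_pow_sub_one (2 ^ (K * W)) n
    rwa [← pow_mul] at this
  rw [geom_eq hb hT.symm]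
  rw [hT, mul_assoc] at h
  exact Nat.eq_of_mul_eq_mul_left h1 h

theorem pack_replicate (hK : 0 < K) (a n : ℕ) :
    pack K (List.replicate n a) = geom K n * a := by
  have e : ∀ n, rowsL [a] n = List.replicate n a := by
    intro n
    induction n with
    | zero => rfl
    | succ n ih => simp [rowsL, ih, List.replicate_succ]
  rw [← e, pack_rowsL (W := 1) rfl (by simpa using hK)]
  simp [pack]

theorem pack_rectList {W lo hi rlo rhi : ℕ} (hK : 0 < K) (hlh : lo ≤ hi + 1) (hW : hi < W) :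
    pack K (rectList K P W lo hi rlo rhi) = rectMask K P W lo hi rlo rhi := by
  have hlen : (mrowL K P W lo hi).length = W := by simp [mrowL]; omega
  have hrow : pack K (mrowL K P W lo hi) =
      2 ^ (K * lo) * ((2 ^ K - 2 ^ P) * geom K (hi + 1 - lo)) := by
    simp [mrowL, pack_append, pack_replicate hK, mul_comm]
  rw [rectList, pack_append, pack_replicate_zero, pack_rowsL hlen (Nat.mul_pos hK (by omega)),
    hrow, List.length_replicate]
  simp only [rectMask, Nat.shiftLeft_eq', Nat.shiftLeft_eq]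
  rw [mul_comm rlo W, mul_add K (W * rlo) lo, pow_add]
  ring_nf

theorem rectList_length {W lo hi rlo rhi : ℕ} (hlh : lo ≤ hi + 1) (hW : hi < W)
    (hr : rlo ≤ rhi + 1) : (rectList K P W lo hi rlo rhi).length = (rhi + 1) * W := by
  have hlen : (mrowL K P W lo hi).length = W := by simp [mrowL]; omega
  have hl : ∀ n, (rowsL (mrowL K P W lo hi) n).length = n * W := by
    intro n
    induction n with
    | zero => simp [rowsL]
    | succ n ih => simp [rowsL, ih, hlen, Nat.succ_mul, add_comm]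
  obtain ⟨d, hd⟩ := Nat.exists_eq_add_of_le hr
  rw [rectList, List.length_append, List.length_replicate, hl, hd, Nat.add_sub_cancel_left]
  ring

theorem getD_replicate_zero (n i : ℕ) : (List.replicate n 0).getD i 0 = 0 := by
  rw [List.getD_eq_getElem?_getD, List.getElem?_replicate]
  split_ifs <;> rfl

theorem rowsL_getD {W : ℕ} {r : List ℕ} (hr : r.length = W) : ∀ n i,
    (rowsL r n).getD i 0 ≠ 0 → i / W < n ∧ r.getD (i % W) 0 ≠ 0
  | 0, i, h => by simp [rowsL] at h
  | n + 1, i, h => by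
    rw [rowsL] at h
    rcases lt_or_ge i W with hi | hi
    · rw [List.getD_append _ _ _ _ (hr ▸ hi)] at h
      rw [Nat.div_eq_of_lt hi, Nat.mod_eq_of_lt hi]
      exact ⟨by omega, h⟩
    · rw [List.getD_append_right _ _ _ _ (hr ▸ hi), hr] at h
      obtain ⟨h1, h2⟩ := rowsL_getD hr n _ h
      rcases Nat.eq_zero_or_pos W with h0 | h0
      · subst h0
        simp [List.length_eq_zero_iff.1 hr] at h2
      · rw [Nat.div_eq_sub_div h0 hi, Nat.mod_eq_sub_mod hi]
        exact ⟨by omega, h2⟩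

theorem rectList_getD {W lo hi rlo rhi i : ℕ} (hlh : lo ≤ hi + 1) (hW : hi < W)
    (h : (rectList K P W lo hi rlo rhi).getD i 0 ≠ 0) :
    lo ≤ i % W ∧ i % W ≤ hi ∧ rlo ≤ i / W ∧ i / W ≤ rhi := by
  rw [rectList] at h
  have hlen : (mrowL K P W lo hi).length = W := by simp [mrowL]; omega
  rcases lt_or_ge i (W * rlo) with hi' | hi'
  · rw [List.getD_append _ _ _ _ (by simpa using hi'), getD_replicate_zero] at h
    exact absurd rfl h
  · rw [List.getD_append_right _ _ _ _ (by simpa using hi'), List.length_replicate] at h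
    obtain ⟨h1, h2⟩ := rowsL_getD hlen _ _ h
    obtain ⟨j, rfl⟩ := Nat.exists_eq_add_of_le hi'
    rw [Nat.add_sub_cancel_left] at h1 h2
    rw [Nat.mul_add_mod, Nat.mul_add_div (by omega)]
    have hj : j % W < W := Nat.mod_lt _ (by omega)
    have : lo ≤ j % W ∧ j % W ≤ hi := by
      rw [mrowL, List.append_assoc] at h2
      by_contra hc
      apply h2
      rcases lt_or_ge (j % W) lo with hl | hl
      · rw [List.getD_append _ _ _ _ (by simpa using hl), getD_replicate_zero]
      · rw [List.getD_append_right _ _ _ _ (by simpa using hl), List.length_replicate,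
          List.getD_append_right _ _ _ _ (by simp; omega), getD_replicate_zero]
    generalize j / W = f at *
    omega

theorem rectList_mem {W lo hi rlo rhi b : ℕ} (hb : b ∈ rectList K P W lo hi rlo rhi) :
    b = 0 ∨ b = 2 ^ K - 2 ^ P := by
  have hrows : ∀ (r : List ℕ) n, ∀ x ∈ rowsL r n, x ∈ r := by
    intro r n
    induction n with
    | zero => simp [rowsL]
    | succ n ih =>
      intro x hx
      rcases List.mem_append.1 hx with hx | hx
      · exact hx
      · exact ih x hx
  rcases List.mem_append.1 hb with h | h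
  · exact Or.inl (List.eq_of_mem_replicate h)
  · have := hrows _ _ _ h
    simp only [mrowL, List.mem_append, List.mem_replicate] at this
    tauto

/-- Cropping a packed law to a window. -/
theorem crop_rect {W lo hi rlo rhi : ℕ} (hK : 0 < K) (hPK : P ≤ K) (hlh : lo ≤ hi + 1) (hW : hi < W)
    {p : List ℕ} (hp : ∀ a ∈ p, a < 2 ^ K) :
    ∃ L : List ℕ, pack K L = crop P (pack K p) (rectMask K P W lo hi rlo rhi) ∧
      (∀ a ∈ L, a < 2 ^ K) ∧ L.length ≤ p.length ∧ L.sum * 2 ^ P ≤ p.sum ∧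
      (∀ i, L.getD i 0 ≠ 0 → lo ≤ i % W ∧ i % W ≤ hi ∧ rlo ≤ i / W ∧ i / W ≤ rhi) ∧
      ∀ F : ℕ → ℝ, (∀ i, 0 ≤ F i) →
        (2 : ℝ) ^ P * dot L F ≤ dot p
          (fun i => if lo ≤ i % W ∧ i % W ≤ hi ∧ rlo ≤ i / W ∧ i / W ≤ rhi then F i else 0) := by
  obtain ⟨h1, h2, h3, h4⟩ := cropL_spec (P := P) (K := K) p (rectList K P W lo hi rlo rhi)
  refine ⟨_, ?_, h3 hp, h1, h2, fun i hi => rectList_getD hlh hW (h4 i hi), fun F hF => ?_⟩
  · rw [← crop_eq hPK hp fun b hb => rectList_mem hb, pack_rectList hK hlh hW]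
  · refine (dot_cropL_le p _ F hF).trans (dot_mono _ _ _ fun i => ?_)
    split_ifs with h1 h2 h2
    · exact hF i
    · exact le_rfl
    · exact le_rfl
    · exact absurd (rectList_getD hlh hW h1) h2

end Vale.P154.Lat
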