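import Mathlib.Data.Nat.Bitwise
import Mathlib.Data.Real.Basic
import Mathlib.Tactic

/-!
# Exact convolutions of nonnegative weights by packed integers

A list of weights is packed into one natural number with digits of `K` bits.  If the total weights
are small, the digits of a product are exactly the convolution.
-/

namespace Vale.P154.Lat

/-- The packed list. -/
def pack (K : ℕ) : List ℕ → ℕ
  | [] => 0
  | a :: l => a + Nat.shiftLeft (pack K l) K

/-- The weighted sum of a function of the index. -/
def dot : List ℕ → (ℕ → ℝ) → ℝ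
  | [], _ => 0
  | a :: l, F => a * F 0 + dot l fun i => F (i + 1)

/-- Pointwise sum. -/
def addL : List ℕ → List ℕ → List ℕ
  | [], q => q
  | p, [] => p
  | a :: p, b :: q => (a + b) :: addL p q

/-- The convolution (used in proofs only). -/
def convL : List ℕ → List ℕ → List ℕ
  | [], _ => []
  | a :: p, q => addL (q.map (a * ·)) (0 :: convL p q)

/-- The digits of `N`, by binary splitting: `2 ^ d` of them. -/
def unpack (K : ℕ) : ℕ → ℕ → List ℕ
  | 0, N => [N]
  | d + 1, N => unpack K d (Nat.land N (Nat.shiftLeft 1 (K * 2 ^ d) - 1)) ++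
      unpack K d (Nat.shiftRight N (K * 2 ^ d))

variable {K : ℕ}

theorem pack_cons (a : ℕ) (l : List ℕ) : pack K (a :: l) = a + 2 ^ K * pack K l := by
  simp [pack, Nat.shiftLeft_eq', Nat.shiftLeft_eq, mul_comm]

theorem pack_addL (p q : List ℕ) : pack K (addL p q) = pack K p + pack K q := by
  induction p generalizing q with
  | nil => simp [addL, pack]
  | cons a p ih =>
    cases q with
    | nil => simp [addL, pack]
    | cons b q => simp [addL, pack_cons, ih]; ring

theorem pack_smul (a : ℕ) (q : List ℕ) : pack K (q.map (a * ·)) = a * pack K q := by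
  induction q with
  | nil => simp [pack]
  | cons b q ih => simp [pack_cons, ih]; ring

theorem pack_convL (p q : List ℕ) : pack K (convL p q) = pack K p * pack K q := by
  induction p with
  | nil => simp [convL, pack]
  | cons a p ih => simp [convL, pack_addL, pack_smul, pack_cons, ih]; ring

theorem sum_addL (p q : List ℕ) : (addL p q).sum = p.sum + q.sum := by
  induction p generalizing q with
  | nil => simp [addL]
  | cons a p ih =>
    cases q with
    | nil => simp [addL]
    | cons b q => simp [addL, ih]; ring

theorem sum_smul (a : ℕ) (q : List ℕ) : (q.map (a * ·)).sum = a * q.sum := by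
  induction q with
  | nil => simp
  | cons b q ih => simp [ih, mul_add]

theorem sum_convL (p q : List ℕ) : (convL p q).sum = p.sum * q.sum := by
  induction p with
  | nil => simp [convL]
  | cons a p ih =>
    simp [convL, sum_addL, sum_smul, ih]; ring

theorem dot_addL (p q : List ℕ) (F : ℕ → ℝ) : dot (addL p q) F = dot p F + dot q F := by
  induction p generalizing q F with
  | nil => simp [addL, dot]
  | cons a p ih =>
    cases q with
    | nil => simp [addL, dot]
    | cons b q => simp [addL, dot, ih]; ring

theorem dot_smul (a : ℕ) (q : List ℕ) (F : ℕ → ℝ) : dot (q.map (a * ·)) F = a * dot q F := by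
  induction q generalizing F with
  | nil => simp [dot]
  | cons b q ih => simp [dot, ih]; ring

theorem dot_convL (p q : List ℕ) (F : ℕ → ℝ) :
    dot (convL p q) F = dot p fun i => dot q fun j => F (i + j) := by
  induction p generalizing F with
  | nil => simp [convL, dot]
  | cons a p ih =>
    simp [convL, dot_addL, dot_smul, dot, ih, add_right_comm]

theorem dot_zero : ∀ (l : List ℕ) (F : ℕ → ℝ), (∀ a ∈ l, a = 0) → dot l F = 0
  | [], _, _ => rfl
  | a :: l, F, h => by
    simp [dot, h a (by simp), dot_zero l _ fun b hb => h b (by simp [hb])]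

theorem pack_eq_zero : ∀ l : List ℕ, pack K l = 0 → ∀ a ∈ l, a = 0
  | [], _ => by simp
  | a :: l, h => by
    rw [pack_cons] at h
    have h2 : pack K l = 0 := by
      rcases Nat.mul_eq_zero.1 (show 2 ^ K * pack K l = 0 by omega) with h' | h'
      · simp at h'
      · exact h'
    intro b hb
    rcases List.mem_cons.1 hb with rfl | hb
    · omega
    · exact pack_eq_zero l h2 b hb

/-- Lists of small digits with the same packed value have the same sums. -/
theorem dot_eq_of_pack_eq : ∀ (p q : List ℕ), (∀ a ∈ p, a < 2 ^ K) → (∀ a ∈ q, a < 2 ^ K) →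
    pack K p = pack K q → ∀ F, dot p F = dot q F
  | [], q, _, _, h, F => by
    rw [dot_zero q F (pack_eq_zero q h.symm), dot]
  | a :: p, [], _, _, h, F => by
    rw [dot_zero _ F (pack_eq_zero _ h), dot]
  | a :: p, b :: q, hp, hq, h, F => by
    rw [pack_cons, pack_cons] at h
    have ha := hp a (by simp)
    have hb := hq b (by simp)
    have e : a = b := by
      have := congrArg (· % 2 ^ K) h
      simpa [Nat.add_mul_mod_self_left, Nat.mod_eq_of_lt ha, Nat.mod_eq_of_lt hb] using this
    have e2 : pack K p = pack K q := by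
      have := Nat.eq_of_mul_eq_mul_left (Nat.two_pow_pos K) (show 2 ^ K * pack K p = 2 ^ K * pack K q by omega)
      exact this
    simp only [dot, e, dot_eq_of_pack_eq p q (fun x hx => hp x (by simp [hx]))
      (fun x hx => hq x (by simp [hx])) e2]

theorem pack_append : ∀ p q : List ℕ, pack K (p ++ q) = pack K p + 2 ^ (K * p.length) * pack K q
  | [], q => by simp [pack]
  | a :: p, q => by
    simp only [List.cons_append, pack_cons, pack_append p q, List.length_cons, Nat.mul_succ, pow_add]
    ring

theorem unpack_spec : ∀ (d N : ℕ), N < 2 ^ (K * 2 ^ d) →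
    pack K (unpack K d N) = N ∧ (unpack K d N).length = 2 ^ d ∧ ∀ a ∈ unpack K d N, a < 2 ^ K
  | 0, N, h => by simpa [unpack, pack] using h
  | d + 1, N, h => by
    simp only [unpack, Nat.shiftLeft_eq', Nat.one_shiftLeft, Nat.shiftRight_eq']
    have hl : Nat.land N (2 ^ (K * 2 ^ d) - 1) = N % 2 ^ (K * 2 ^ d) :=
      Nat.and_two_pow_sub_one_eq_mod N _
    rw [hl]
    have e : K * 2 ^ (d + 1) = K * 2 ^ d + K * 2 ^ d := by rw [pow_succ]; ring
    rw [e, pow_add] at h
    obtain ⟨h1, h2, h3⟩ := unpack_spec d (N % 2 ^ (K * 2 ^ d)) (Nat.mod_lt _ (Nat.two_pow_pos _))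
    obtain ⟨g1, g2, g3⟩ := unpack_spec d (N / 2 ^ (K * 2 ^ d))
      (Nat.div_lt_of_lt_mul h)
    rw [Nat.shiftRight_eq_div_pow]
    refine ⟨?_, by simp [h2, g2, pow_succ, mul_comm, two_mul], fun a ha => ?_⟩
    · rw [pack_append, h1, g1, h2, Nat.mod_add_div]
    · rcases List.mem_append.1 ha with ha | ha
      · exact h3 a ha
      · exact g3 a ha

theorem le_sum : ∀ (l : List ℕ), ∀ a ∈ l, a ≤ l.sum
  | [], a, h => by simp at h
  | b :: l, a, h => by
    rcases List.mem_cons.1 h with rfl | h
    · simp
    · have := le_sum l a h; simp; omega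

/-- The digits of a packed product are the convolution. -/
theorem dot_unpack_mul {d : ℕ} {a b : List ℕ} (hs : a.sum * b.sum < 2 ^ K)
    (hd : pack K a * pack K b < 2 ^ (K * 2 ^ d)) (F : ℕ → ℝ) :
    dot (unpack K d (pack K a * pack K b)) F = dot a fun i => dot b fun j => F (i + j) := by
  obtain ⟨h1, -, h3⟩ := unpack_spec d _ hd
  rw [← dot_convL]
  refine dot_eq_of_pack_eq _ _ h3 (fun x hx => ?_) (by rw [h1, pack_convL]) F
  exact lt_of_le_of_lt (le_sum _ x hx) (by rw [sum_convL]; exact hs)

/-- Pointwise comparison of weights, missing entries being zero. -/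
def leL : List ℕ → List ℕ → Bool
  | [], _ => true
  | a :: p, [] => Nat.beq a 0 && leL p []
  | a :: p, b :: q => Nat.ble a b && leL p q

theorem dot_le_of_leL : ∀ (p q : List ℕ), leL p q = true → ∀ F : ℕ → ℝ, (∀ i, 0 ≤ F i) →
    dot p F ≤ dot q F
  | [], [], _, F, _ => le_rfl
  | [], b :: q, _, F, hF => by
    have := dot_le_of_leL [] q (by simp [leL]) (fun i => F (i + 1)) fun i => hF _
    simp only [dot] at this ⊢
    have := mul_nonneg (Nat.cast_nonneg (α := ℝ) b) (hF 0)
    linarith
  | a :: p, [], h, F, hF => by
    simp only [leL, Bool.and_eq_true] at h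
    have := dot_le_of_leL p [] h.2 (fun i => F (i + 1)) fun i => hF _
    simp only [dot, Nat.eq_of_beq_eq_true h.1, Nat.cast_zero, zero_mul, zero_add] at this ⊢
    exact this
  | a :: p, b :: q, h, F, hF => by
    simp only [leL, Bool.and_eq_true] at h
    simp only [dot]
    exact add_le_add (mul_le_mul_of_nonneg_right (by exact_mod_cast Nat.le_of_ble_eq_true h.1) (hF 0))
      (dot_le_of_leL p q h.2 _ fun i => hF _)

end Vale.P154.Lat
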