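import Vale.Agent.P154.Lattice.Tables

/-!
# Soundness of one checked generation

If the tables are correct and the numbers pass `stepOk`, a lower bound at depth `n` gives the new
lower bound at depth `n + 1`.
-/

noncomputable section

namespace Vale.P154.Lat

open Finset

/-- The row of a node leaf. -/
def histN (a : NLeaf) : List ℕ := (rowL a.tg).map (a.mult * ·)

/-- The row of an edge leaf. -/
def histE (a : ELeaf) : List ℕ := (rowL a.tg).map (3 * ·)

/-- The value at the message of a class. -/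
def clsVal (C : Par) (F : V3 → ℝ) (i : ℕ) : ℝ :=
  F (vec C 1 (C.classes.getD i (0, 0)).1 (C.classes.getD i (0, 0)).2)

theorem pq_pos {C : Par} (hC : parOk C = true) : (0 : ℝ) < ((C.p * C.q : ℕ) : ℝ) := by
  simp only [parOk, Bool.and_eq_true, Nat.blt_eq] at hC
  obtain ⟨⟨⟨⟨hq, hp⟩, -⟩, -⟩, -⟩ := hC
  exact Nat.cast_pos.2 (Nat.mul_pos (by omega) hq)

/-- The image of a target. -/
def tgVec (C : Par) (t : ℕ × ℕ × ℕ) : V3 :=
  vec C 1 ((images C (C.classes.getD t.1 (0, 0)).1 (C.classes.getD t.1 (0, 0)).2).getD t.2.1 (0, 0)).1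
    ((images C (C.classes.getD t.1 (0, 0)).1 (C.classes.getD t.1 (0, 0)).2).getD t.2.1 (0, 0)).2

theorem imgN_real {C : Par} (hC : parOk C = true) (i : Fin 3) : ∀ l, tgOk C l = true →
    (imgN C i l : ℝ) =
      (l.map fun t => (t.2.2 : ℝ) * tgVec C t i).sum * ((C.p * C.q : ℕ) : ℝ) ^ (3 * C.K)
  | [], _ => by simp [imgN]
  | (j, g, c) :: l, h => by
    simp only [tgOk, Bool.and_eq_true, Nat.blt_eq] at h
    obtain ⟨⟨hj, hg⟩, hl⟩ := h
    have hb := class_getD hC hj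
    have hy : (images C (C.classes.getD j (0, 0)).1 (C.classes.getD j (0, 0)).2).getD g (0, 0) ∈
        images C (C.classes.getD j (0, 0)).1 (C.classes.getD j (0, 0)).2 := by
      have hl : g < (images C (C.classes.getD j (0, 0)).1 (C.classes.getD j (0, 0)).2).length := by
        simpa [images] using hg
      rw [List.getD_eq_getElem _ _ hl]
      exact List.getElem_mem hl
    obtain ⟨h1, h2⟩ := images_bound hb hy
    obtain ⟨e0, e1, e2⟩ := vec_powN hC (m := 1)
      (A := ((images C (C.classes.getD j (0, 0)).1 (C.classes.getD j (0, 0)).2).getD g (0, 0)).1)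
      (B := ((images C (C.classes.getD j (0, 0)).1 (C.classes.getD j (0, 0)).2).getD g (0, 0)).2)
      (by omega) (by omega)
    simp only [mul_one] at e0 e1 e2
    simp only [imgN, List.map_cons, List.sum_cons, Nat.cast_add, Nat.cast_mul,
      imgN_real hC i l hl]
    fin_cases i <;> simp_all [tgVec] <;> ring

theorem ch_e1 {F : V3 → ℝ} (hF : Conc F) (hs : Sym F) (i : Fin 3) :
    F (ch (e1 i)) = F (eu 0) / 2 := by
  have e : ch (e1 i) = fun j => (1 / 2 : ℝ) * eu i j := by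
    funext j
    fin_cases i <;> fin_cases j <;> simp [ch, e1, eu]
  rw [e, hF.smul _ _ (by norm_num) (eu_nonneg i), sym_eu hs]
  ring

/-- Targets below a message. -/
theorem targets_le {C : Par} (hC : parOk C = true) {F : V3 → ℝ} (hF : Conc F) (hs : Sym F)
    {tg : List (ℕ × ℕ × ℕ)} (ht : tgOk C tg = true) {P : V3}
    (hP : ∀ i : Fin 3, (imgN C i tg : ℝ) ≤
      2 ^ 40 * P i * ((C.p * C.q : ℕ) : ℝ) ^ (3 * C.K)) :
    dot (rowL tg) (clsVal C F) / 2 ^ 40 ≤ F P := by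
  have mem : ∀ t ∈ tg, t.1 < C.classes.length ∧ t.2.1 < 6 := by
    clear hP
    induction tg with
    | nil => simp
    | cons a l ih =>
      obtain ⟨j, g, c⟩ := a
      simp only [tgOk, Bool.and_eq_true, Nat.blt_eq] at ht
      intro t h
      rcases List.mem_cons.1 h with rfl | h
      · exact ht.1
      · exact ih ht.2 t h
  have h := hF.list_le tg (fun t => (t.2.2 : ℝ) / 2 ^ 40) (tgVec C) P (fun t => by positivity)
    (fun t => vec_nonneg hC _ _ _) fun i => by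
      have h1 := hP i
      rw [imgN_real hC i tg ht] at h1
      have h2 := le_of_mul_le_mul_right h1 (pow_pos (pq_pos hC) _)
      have e : ∀ t : ℕ × ℕ × ℕ, (t.2.2 : ℝ) / 2 ^ 40 * tgVec C t i =
          (1 / 2 ^ 40) * ((t.2.2 : ℝ) * tgVec C t i) := fun t => by ring
      simp only [e, List.sum_map_mul_left]
      rw [one_div, inv_mul_eq_div, div_le_iff₀ (by positivity)]
      linarith
  refine le_trans (le_of_eq ?_) h
  rw [dot_rowL, div_eq_mul_inv, ← List.sum_map_mul_right]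
  refine congrArg List.sum (List.map_congr_left fun t ht' => ?_)
  obtain ⟨hj, hg⟩ := mem t ht'
  rw [show F (tgVec C t) = clsVal C F t.1 from sym_images (class_getD hC hj) hs hg]
  ring

theorem sectN_real {x y z Q : ℝ} (hQ : 0 < Q) {X Y Z : ℕ} (hx : (X : ℝ) = x * Q)
    (hy : (Y : ℝ) = y * Q) (hz : (Z : ℝ) = z * Q) : (sectN X Y Z : ℝ) = sect x y z := by
  have le : ∀ {a b : ℝ} {A B : ℕ}, (A : ℝ) = a * Q → (B : ℝ) = b * Q → (A ≤ B ↔ a ≤ b) := by
    intro a b A B ha hb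
    rw [← Nat.cast_le (α := ℝ), ha, hb]
    exact mul_le_mul_iff_of_pos_right hQ
  have eq : ∀ {a b : ℝ} {A B : ℕ}, (A : ℝ) = a * Q → (B : ℝ) = b * Q → (A = B ↔ a = b) := by
    intro a b A B ha hb
    rw [le_antisymm_iff, le_antisymm_iff, le ha hb, le hb ha]
  unfold sectN sect
  simp only [Bool.and_eq_true, Bool.or_eq_true, Nat.ble_eq, Nat.beq_eq, le hy hx, le hz hy,
    eq hx hz, eq hx hy, eq hy hz]
  split_ifs <;> norm_num

theorem node_leaf {C : Par} (hC : parOk C = true) {F : V3 → ℝ} (hF : Conc F) (hs : Sym F)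
    (a : NLeaf) (n : ℕ) (h : nleafOk C a n = true) :
    (1 / 2 ^ 40) * dot (histN a) (clsVal C F) +
        (-(F (eu 0) / 2) / 2 ^ 40) * (a.mu : ℝ) ≤
      sect (vdec C 4 n 0) (vdec C 4 n 1) (vdec C 4 n 2) *
        rest (fun v => F (ch v)) (vdec C 4 n) := by
  simp only [nleafOk, Bool.and_eq_true, Nat.beq_eq, Nat.ble_eq] at h
  obtain ⟨⟨⟨⟨⟨⟨⟨⟨⟨hn, hA⟩, hB⟩, hm⟩, ht⟩, -⟩, hmu⟩, h0⟩, h1⟩, h2⟩ := h
  have e : vdec C 4 n = vec C 4 a.A a.B := by
    subst hn
    unfold vdec posW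
    rw [Nat.mul_comm, Nat.mul_add_div (by omega), Nat.mul_add_mod,
      Nat.div_eq_of_lt (by omega), Nat.mod_eq_of_lt (by omega), add_zero]
  rw [e]
  set v := vec C 4 a.A a.B with hv
  obtain ⟨ex, ey, ez⟩ := vec_powN hC (m := 4) (A := a.A) (B := a.B) (by omega) (by omega)
  norm_num at ex ey ez
  rw [← hv] at ex ey ez
  have hv0 := vec_nonneg hC 4 a.A a.B
  rw [← hv] at hv0
  set Q := ((C.p * C.q : ℕ) : ℝ) with hQdef
  have hQ : 0 < Q := pq_pos hC
  have hQ' : (C.p : ℝ) * C.q = Q := by rw [hQdef, Nat.cast_mul]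
  rw [hQ'] at ex ey ez
  have h0' := (Nat.cast_le (α := ℝ)).2 h0
  have h1' := (Nat.cast_le (α := ℝ)).2 h1
  have h2' := (Nat.cast_le (α := ℝ)).2 h2
  push_cast at h0' h1' h2'
  simp only [ex, ey, ez, hQ'] at h0' h1' h2'
  have split : Q ^ (12 * C.K) = Q ^ (3 * C.K) * Q ^ (9 * C.K) := by rw [← pow_add]; ring_nf
  have hP : ∀ i : Fin 3, (imgN C i a.tg : ℝ) ≤ 2 ^ 40 * ch v i * Q ^ (3 * C.K) := by
    intro i
    refine le_of_mul_le_mul_right ?_ (pow_pos hQ (9 * C.K))
    rw [mul_assoc _ (Q ^ _) (Q ^ _), ← split]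
    fin_cases i <;> simp [ch] <;> nlinarith
  have hT := targets_le hC hF hs ht hP
  have hR : rest (fun v => F (ch v)) v = F (ch v) - F (eu 0) / 2 * (v 0 + v 1 + v 2) := by
    simp only [rest, ch_e1 hF hs]; ring
  have hsect : (a.mult : ℝ) ≤ sect (v 0) (v 1) (v 2) := by
    rw [← sectN_real (pow_pos hQ (12 * C.K)) ex ey ez]
    exact_mod_cast hm
  have hG := (hF.ch.rest).nn v hv0
  refine le_trans ?_ (mul_le_mul_of_nonneg_right hsect hG)
  rw [hR]
  have hmu' := (Nat.cast_le (α := ℝ)).2 hmu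
  push_cast at hmu'
  simp only [ex, ey, ez, hQ'] at hmu'
  have hmu2 : (a.mult : ℝ) * (v 0 + v 1 + v 2) * 2 ^ 40 ≤ a.mu :=
    le_of_mul_le_mul_right (by linarith) (pow_pos hQ (12 * C.K))
  have hev : 0 ≤ F (eu 0) / 2 := div_nonneg (hF.nn _ (eu_nonneg 0)) (by norm_num)
  have he := mul_le_mul_of_nonneg_left hmu2 hev
  rw [histN, dot_smul]
  have := mul_le_mul_of_nonneg_left hT (Nat.cast_nonneg (α := ℝ) a.mult)
  ring_nf at this he ⊢
  linarith

theorem edge_leaf {C : Par} (hC : parOk C = true) {F : V3 → ℝ} (hF : Conc F) (hs : Sym F)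
    (a : ELeaf) (n : ℕ) (h : eleafOk C a n = true) :
    (1 / 2 ^ 40) * dot (histE a) (clsVal C F) +
        (-(F (eu 0) / 2) / 2 ^ 40) * (a.mu : ℝ) ≤
      3 * rest (fun v => F (ch v)) (vP C 4 n) := by
  simp only [eleafOk, Bool.and_eq_true, Nat.beq_eq, Nat.ble_eq] at h
  obtain ⟨⟨⟨⟨⟨⟨⟨hn, hk⟩, ht⟩, -⟩, hmu⟩, h0⟩, h1⟩, h2⟩ := h
  subst hn
  set v := vP C 4 a.k with hv
  set Q := ((C.p * C.q : ℕ) : ℝ) with hQdef
  have hQ : 0 < Q := pq_pos hC
  have hQ' : (C.p : ℝ) * C.q = Q := by rw [hQdef, Nat.cast_mul]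
  have ex : (powN C (48 * C.K) (3 * a.k) : ℝ) = v 0 * Q ^ (24 * C.K) := by
    rw [show 48 * C.K = 2 * (24 * C.K) by ring, powN_real hC _ _ (by omega)]
    simp only [hv, vP, Matrix.cons_val_zero]
    push_cast [← hQdef]
    ring_nf
  have v1 : v 1 = 1 := by simp [hv, vP]
  have v2 : v 2 = 0 := by simp [hv, vP]
  have h0' := (Nat.cast_le (α := ℝ)).2 h0
  have h1' := (Nat.cast_le (α := ℝ)).2 h1
  have h2' := (Nat.cast_le (α := ℝ)).2 h2
  push_cast at h0' h1' h2'
  simp only [ex, hQ'] at h0' h1' h2'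
  have split : Q ^ (24 * C.K) = Q ^ (3 * C.K) * Q ^ (21 * C.K) := by rw [← pow_add]; ring_nf
  have hP : ∀ i : Fin 3, (imgN C i a.tg : ℝ) ≤ 2 ^ 40 * ch v i * Q ^ (3 * C.K) := by
    intro i
    refine le_of_mul_le_mul_right ?_ (pow_pos hQ (21 * C.K))
    rw [mul_assoc _ (Q ^ _) (Q ^ _), ← split]
    fin_cases i <;> simp [ch, v1, v2] <;> nlinarith
  have hT := targets_le hC hF hs ht hP
  have hR : rest (fun v => F (ch v)) v = F (ch v) - F (eu 0) / 2 * (v 0 + v 1 + v 2) := by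
    simp only [rest, ch_e1 hF hs]; ring
  have hmu' := (Nat.cast_le (α := ℝ)).2 hmu
  push_cast at hmu'
  simp only [ex, hQ'] at hmu'
  have hmu2 : 3 * (v 0 + v 1 + v 2) * 2 ^ 40 ≤ (a.mu : ℝ) := by
    refine le_of_mul_le_mul_right ?_ (pow_pos hQ (24 * C.K))
    rw [v1, v2]
    linarith
  have hev : 0 ≤ F (eu 0) / 2 := div_nonneg (hF.nn _ (eu_nonneg 0)) (by norm_num)
  have he := mul_le_mul_of_nonneg_left hmu2 hev
  rw [hR, histE, dot_smul]
  push_cast
  ring_nf at hT he ⊢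
  linarith

/-- Soundness of one generation. -/
theorem below_step {C : Par} {TN : Tr NLeaf} {TE : Tr ELeaf} (hC : parOk C = true)
    (hN : tall (nleafOk C) (C.dA + 2) 0 TN = true) (hE : tall (eleafOk C) (C.dP + 2) 0 TE = true)
    {S E S' E' n : ℕ} (hstep : stepOk C TN TE S E S' E' = true) (h : Below (sval C S E) n) :
    Below (sval C S' E') (n + 1) := by
  refine Below.of_sym (fun F _ => sval_avg hC S' E' F) fun F hF hs => ?_
  refine le_trans ?_ (h.step (sval_finitary hC S E) hF hs)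
  simp only [stepOk, Bool.and_eq_true, Nat.ble_eq, Nat.blt_eq] at hstep
  obtain ⟨⟨⟨⟨ha, hr⟩, hsum⟩, hbins⟩, hcor⟩ := hstep
  have hRA : ∀ x ∈ arrA C S, x < 2 ^ C.bA := fun x hx =>
    lt_of_le_of_lt ((le_sum _ x hx).trans_eq (sum_arrA C S)) ha
  have hRE : ∀ x ∈ arrE C S E, x < 2 ^ C.bA := fun x hx =>
    lt_of_le_of_lt ((le_sum _ x hx).trans_eq (sum_arrE C S E)) hr
  set hlA := tcomb histN (C.dA + 2) TN (arrA C S) with hlA_def
  set hlE := tcomb histE (C.dP + 2) TE (arrE C S E) with hlE_def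
  set Z := addL hlA hlE with hZ_def
  set M := (tcomb (fun a => [a.mu]) (C.dA + 2) TN (arrA C S)).sum +
    (tcomb (fun a => [a.mu]) (C.dP + 2) TE (arrE C S E)).sum with hM_def
  set T := tread C.bA (fun l x => cN C l * x) (C.dA + 2) TN (powA C S) +
    tread C.bA (fun l x => cE C l * x) (C.dP + 2) TE (powE C S E) with hT_def
  have hMN : (((tcomb (fun a => [a.mu]) (C.dA + 2) TN (arrA C S)).sum : ℕ) : ℝ) =
      tval (fun a _ => (a.mu : ℝ)) (C.dA + 2) 0 TN (arrA C S) := by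
    rw [← dot_one, dot_tcomb _ _ _ 0]; simp [dot]
  have hME : (((tcomb (fun a => [a.mu]) (C.dP + 2) TE (arrE C S E)).sum : ℕ) : ℝ) =
      tval (fun a _ => (a.mu : ℝ)) (C.dP + 2) 0 TE (arrE C S E) := by
    rw [← dot_one, dot_tcomb _ _ _ 0]; simp [dot]
  have eT : T = pack C.cw Z + 2 ^ off C * M := by
    apply Nat.cast_injective (R := ℝ)
    simp only [hT_def, hZ_def, hM_def, hlA_def, hlE_def, ← pack_arrA, ← pack_arrE, Nat.cast_add,
      Nat.cast_mul, pack_addL, hMN, hME]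
    rw [tread_eq (cN C) _ _ _ hRA (length_arrA hC S) 0,
      tread_eq (cE C) _ _ _ hRE (length_arrE hC S E) 0, pack_tcomb _ _ _ 0, pack_tcomb _ _ _ 0]
    have eN : tval (fun a _ => (cN C a : ℝ)) (C.dA + 2) 0 TN (arrA C S) =
        tval (fun a n => 1 * (pack C.cw (histN a) : ℝ) + ((2 ^ off C : ℕ) : ℝ) * (a.mu : ℝ))
          (C.dA + 2) 0 TN (arrA C S) := tval_congr (fun a n _ => by
      simp [cN, histN, pack_smul, pack_rowL, Nat.shiftLeft_eq', Nat.shiftLeft_eq]; ring) _ _ _ hN _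
    have eE : tval (fun a _ => (cE C a : ℝ)) (C.dP + 2) 0 TE (arrE C S E) =
        tval (fun a n => 1 * (pack C.cw (histE a) : ℝ) + ((2 ^ off C : ℕ) : ℝ) * (a.mu : ℝ))
          (C.dP + 2) 0 TE (arrE C S E) := tval_congr (fun a n _ => by
      simp [cE, histE, pack_smul, pack_rowL, Nat.shiftLeft_eq', Nat.shiftLeft_eq]; ring) _ _ _ hE _
    rw [eN, eE, tval_combo, tval_combo]
    push_cast
    ring
  have hlenN : ∀ a m, nleafOk C a m = true → (histN a).length ≤ C.classes.length := by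
    intro a m h
    simp only [nleafOk, Bool.and_eq_true] at h
    simpa [histN] using length_rowL _ h.1.1.1.1.1.2
  have hlenE : ∀ a m, eleafOk C a m = true → (histE a).length ≤ C.classes.length := by
    intro a m h
    simp only [eleafOk, Bool.and_eq_true] at h
    simpa [histE] using length_rowL _ h.1.1.1.1.1.2
  have hsN : ∀ a m, nleafOk C a m = true → (histN a).sum ≤ 2 ^ C.cb := by
    intro a m h
    simp only [nleafOk, Bool.and_eq_true, Nat.ble_eq] at h
    rw [histN, sum_smul, sum_rowL]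
    exact h.1.1.1.1.2
  have hsE : ∀ a m, eleafOk C a m = true → (histE a).sum ≤ 2 ^ C.cb := by
    intro a m h
    simp only [eleafOk, Bool.and_eq_true, Nat.ble_eq] at h
    rw [histE, sum_smul, sum_rowL]
    exact h.1.1.1.1.2
  have hZlen : Z.length ≤ C.classes.length := by
    rw [hZ_def, length_addL]
    exact max_le (length_tcomb hlenN _ _ _ hN _) (length_tcomb hlenE _ _ _ hE _)
  have hZs : ∀ x ∈ Z, x < 2 ^ C.cw := by
    intro x hx
    refine lt_of_le_of_lt ((le_sum _ x hx).trans ?_) hsum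
    rw [hZ_def, sum_addL, add_mul, ← sum_arrA, ← sum_arrE, mul_comm (arrA C S).sum,
      mul_comm (arrE C S E).sum]
    exact add_le_add (tcomb_sum_le hsN hN _) (tcomb_sum_le hsE hE _)
  have hlow : pack C.cw Z < 2 ^ off C :=
    lt_of_lt_of_le (pack_lt _ _ hZs)
      (Nat.pow_le_pow_right (by norm_num) (Nat.mul_le_mul le_rfl hZlen))
  have eLow : Nat.land T (mask (off C)) = pack C.cw Z := by
    show Nat.land T (Nat.shiftLeft 1 (off C) - 1) = _
    rw [Nat.shiftLeft_eq', Nat.one_shiftLeft]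
    refine (Nat.and_two_pow_sub_one_eq_mod _ _).trans ?_
    rw [eT, Nat.add_mul_mod_self_left, Nat.mod_eq_of_lt hlow]
  have eHigh : Nat.shiftRight T (off C) = M := by
    rw [Nat.shiftRight_eq', Nat.shiftRight_eq_div_pow, eT,
      Nat.add_mul_div_left _ _ (Nat.two_pow_pos _), Nat.div_eq_of_lt hlow, zero_add]
  rw [eLow] at hbins
  rw [eHigh] at hcor
  set G := rest fun v => F (ch v) with hGdef
  have hG : Conc G := hF.ch.rest
  have hGs : Sym G := by
    intro π v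
    have e : ch (fun i => v (π i)) = fun i => ch v (π i) := by
      funext i
      have := Equiv.sum_comp π v
      simp only [Fin.sum_univ_three] at this
      simp only [ch, this]
    simp only [hGdef, rest, ch_e1 hF hs, e, hs π (ch v)]
    have := Equiv.sum_comp π v
    simp only [Fin.sum_univ_three] at this
    linear_combination (-(F (eu 0) / 2)) * this
  have hfour := fourth_ge hC S E hG hGs
  set U := (2 : ℝ) ^ 40 with hU_def
  have hU : 0 < U := by positivity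
  have lbN := tval_le_dot
    (fun a _ => (1 / 2 ^ 40) * dot (histN a) (clsVal C F) + (-(F (eu 0) / 2) / U) * (a.mu : ℝ))
    (fun i => sect (vdec C 4 i 0) (vdec C 4 i 1) (vdec C 4 i 2) * G (vdec C 4 i)) (nleafOk C)
    (fun i => mul_nonneg (by unfold sect; split_ifs <;> norm_num) (hG.nn _ (vec_nonneg hC _ _ _)))
    (fun a m hm => node_leaf hC hF hs a m hm) (C.dA + 2) 0 TN hN (arrA C S)
  have lbE := tval_le_dot
    (fun a _ => (1 / 2 ^ 40) * dot (histE a) (clsVal C F) + (-(F (eu 0) / 2) / U) * (a.mu : ℝ))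
    (fun k => 3 * G (vP C 4 k)) (eleafOk C)
    (fun i => mul_nonneg (by norm_num) (hG.nn _ (vP_nonneg hC _ _)))
    (fun a m hm => edge_leaf hC hF hs a m hm) (C.dP + 2) 0 TE hE (arrE C S E)
  simp only [zero_add] at lbN lbE
  rw [tval_combo, ← hMN, ← dot_tcomb, ← hlA_def] at lbN
  rw [tval_combo, ← hME, ← dot_tcomb, ← hlE_def, dot_const_mul] at lbE
  have hb := bins_dot C (6 * 2 ^ (3 * C.P + 40)) C.classes S' Z hbins hZs
    (fun c => F (vec C 1 c.1 c.2)) fun c => hF.nn _ (vec_nonneg hC _ _ _)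
  change _ ≤ dot Z (clsVal C F) at hb
  rw [hZ_def, dot_addL, List.sum_map_mul_left] at hb
  have hc : (6 : ℝ) * E' * 2 ^ (3 * C.P) * U + (M : ℝ) ≤ 3 * 2 ^ (4 * C.P) * U := by
    have h' := (Nat.cast_le (α := ℝ)).2 hcor
    push_cast at h'
    rw [pow_add, pow_add] at h'
    simp only [hU_def]
    linarith
  have hev : 0 ≤ F (eu 0) := hF.nn _ (eu_nonneg 0)
  rw [sval_sym hC S' E' hs, ch_e1 hF hs]
  refine le_trans ?_ (add_le_add_left hfour _)
  set W := ((withW C C.classes S').map fun x => (x.2 : ℝ) * F (vec C 1 x.1.1 x.1.2)).sum with hW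
  have hWZ : (6 : ℝ) * 2 ^ (3 * C.P + 40) * W ≤ dot hlA (clsVal C F) + dot hlE (clsVal C F) := by
    push_cast at hb
    exact hb
  have hMs : (M : ℝ) = ((tcomb (fun a => [a.mu]) (C.dA + 2) TN (arrA C S)).sum : ℕ) +
      ((tcomb (fun a => [a.mu]) (C.dP + 2) TE (arrE C S E)).sum : ℕ) := by
    rw [hM_def]; push_cast; ring
  have key : 6 * 2 ^ (3 * C.P) * W + (F (eu 0) / 2) * (6 * E' * 2 ^ (3 * C.P)) ≤
      (1 / 2 ^ 40) * (dot hlA (clsVal C F) + dot hlE (clsVal C F)) +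
        (-(F (eu 0) / 2) / U) * (M : ℝ) + 3 * (F (eu 0) / 2) * 2 ^ (4 * C.P) := by
    have h1 : 6 * 2 ^ (3 * C.P) * W ≤
        (1 / 2 ^ 40) * (dot hlA (clsVal C F) + dot hlE (clsVal C F)) := by
      rw [pow_add] at hWZ
      rw [one_div, inv_mul_eq_div, le_div_iff₀ (by positivity)]
      linarith
    have h2 : 6 * (E' : ℝ) * 2 ^ (3 * C.P) ≤ 3 * 2 ^ (4 * C.P) - (M : ℝ) / U := by
      rw [le_sub_iff_add_le, ← le_sub_iff_add_le', div_le_iff₀ hU]
      linarith
    have h3 := mul_le_mul_of_nonneg_left h2 (div_nonneg hev (by norm_num : (0 : ℝ) ≤ 2))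
    linear_combination h1 + h3
  have e4 : (2 : ℝ) ^ (4 * C.P) = 2 ^ (3 * C.P) * 2 ^ C.P := by rw [← pow_add]; ring_nf
  rw [hMs] at key
  rw [div_add' _ _ _ (by positivity), le_div_iff₀ (by positivity)]
  have hP : (0 : ℝ) < 2 ^ C.P := by positivity
  rw [e4] at key ⊢
  calc (6 / 2 ^ C.P * W + 3 * (E' : ℝ) / 2 ^ C.P * F (eu 0)) * (2 ^ (3 * C.P) * 2 ^ C.P)
      = 6 * 2 ^ (3 * C.P) * W + (F (eu 0) / 2) * (6 * E' * 2 ^ (3 * C.P)) := by field_simp; ring
    _ ≤ _ := by linarith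

end Vale.P154.Lat
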