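import Vale.Agent.P154.Lattice.Fourth

/-!
# Sums over verified tables

Packed rows of targets, their combination over the leaves of a table, and the comparison of the
combined digits with the new class weights.
-/

noncomputable section

namespace Vale.P154.Lat

/-- The row of a list of targets. -/
def rowL : List (ℕ × ℕ × ℕ) → List ℕ
  | [] => []
  | (j, _, c) :: l => addL (List.replicate j 0 ++ [c]) (rowL l)

theorem pack_rowL (C : Par) : ∀ l, pack C.cw (rowL l) = rowN C l
  | [] => rfl
  | (j, g, c) :: l => by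
    simp [rowL, rowN, pack_addL, pack_rowL C l, pack_append, pack_replicate_zero, pack,
      Nat.shiftLeft_eq', Nat.shiftLeft_eq, mul_comm]

theorem sum_rowL : ∀ l, (rowL l).sum = sumT l
  | [] => rfl
  | (j, g, c) :: l => by simp [rowL, sumT, sum_addL, sum_rowL l]

theorem length_rowL {C : Par} : ∀ l, tgOk C l = true → (rowL l).length ≤ C.classes.length
  | [], _ => by simp [rowL]
  | (j, g, c) :: l, h => by
    simp only [tgOk, Bool.and_eq_true, Nat.blt_eq] at h
    have := length_rowL l h.2
    simp only [rowL, length_addL, List.length_append, List.length_replicate, List.length_cons,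
      List.length_nil]
    omega

theorem dot_rowL : ∀ (l : List (ℕ × ℕ × ℕ)) (F : ℕ → ℝ),
    dot (rowL l) F = (l.map fun t => (t.2.2 : ℝ) * F t.1).sum
  | [], F => by simp [rowL, dot]
  | (j, g, c) :: l, F => by
    simp [rowL, dot_addL, dot_append, dot_replicate_zero, dot, dot_rowL l]

/-- Combine the lists at the leaves with the digits of a read list. -/
def tcomb {α : Type} (h : α → List ℕ) : ℕ → Tr α → List ℕ → List ℕ
  | 0, .leaf a, r => (h a).map (r.headD 0 * ·)
  | d + 1, .node l t, r => addL (tcomb h d l (r.take (2 ^ d))) (tcomb h d t (r.drop (2 ^ d)))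
  | _, _, _ => []

theorem dot_tcomb {α : Type} (h : α → List ℕ) (F : ℕ → ℝ) : ∀ (d : ℕ) (off : ℕ) (t : Tr α)
    (r : List ℕ), dot (tcomb h d t r) F = tval (fun a _ => dot (h a) F) d off t r
  | 0, _, .leaf a, r => by simp [tcomb, tval, dot_smul]
  | 0, _, .none, r => by simp [tcomb, tval, dot]
  | 0, _, .node _ _, r => by simp [tcomb, tval, dot]
  | d + 1, _, .none, r => by simp [tcomb, tval, dot]
  | d + 1, _, .leaf _, r => by simp [tcomb, tval, dot]
  | d + 1, off, .node l t, r => by
    simp only [tcomb, tval, dot_addL]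
    rw [dot_tcomb h F d off l _, dot_tcomb h F d (off + 2 ^ d) t _]

theorem pack_tcomb {α : Type} (K : ℕ) (h : α → List ℕ) : ∀ (d : ℕ) (off : ℕ) (t : Tr α)
    (r : List ℕ), (pack K (tcomb h d t r) : ℝ) = tval (fun a _ => (pack K (h a) : ℝ)) d off t r
  | 0, _, .leaf a, r => by simp [tcomb, tval, pack_smul]
  | 0, _, .none, r => by simp [tcomb, tval, pack]
  | 0, _, .node _ _, r => by simp [tcomb, tval, pack]
  | d + 1, _, .none, r => by simp [tcomb, tval, pack]
  | d + 1, _, .leaf _, r => by simp [tcomb, tval, pack]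
  | d + 1, off, .node l t, r => by
    simp only [tcomb, tval, pack_addL, Nat.cast_add]
    rw [pack_tcomb K h d off l _, pack_tcomb K h d (off + 2 ^ d) t _]

theorem length_tcomb {α : Type} {h : α → List ℕ} {p : α → ℕ → Bool} {b : ℕ}
    (hb : ∀ a n, p a n = true → (h a).length ≤ b) : ∀ (d off : ℕ) (t : Tr α),
    tall p d off t = true → ∀ r, (tcomb h d t r).length ≤ b
  | 0, _, .none, _, r => by simp [tcomb]
  | 0, off, .leaf a, ht, r => by simpa [tcomb] using hb a off ht
  | 0, _, .node _ _, ht, r => by simp [tall] at ht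
  | d + 1, _, .none, _, r => by simp [tcomb]
  | d + 1, _, .leaf _, ht, r => by simp [tall] at ht
  | d + 1, off, .node l t, ht, r => by
    simp only [tall, Bool.and_eq_true] at ht
    simp only [tcomb, length_addL]
    exact max_le (length_tcomb hb d off l ht.1 _) (length_tcomb hb d _ t ht.2 _)

theorem tval_combo {α : Type} (a b : ℝ) (φ ψ : α → ℕ → ℝ) : ∀ (d off : ℕ) (t : Tr α) (r : List ℕ),
    tval (fun x n => a * φ x n + b * ψ x n) d off t r =
      a * tval φ d off t r + b * tval ψ d off t r
  | 0, _, .leaf _, r => by simp [tval]; ring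
  | 0, _, .none, r => by simp [tval]
  | 0, _, .node _ _, r => by simp [tval]
  | d + 1, _, .none, r => by simp [tval]
  | d + 1, _, .leaf _, r => by simp [tval]
  | d + 1, off, .node l t, r => by
    simp only [tval, tval_combo a b φ ψ d]; ring

theorem tval_congr {α : Type} {φ ψ : α → ℕ → ℝ} {p : α → ℕ → Bool}
    (h : ∀ a n, p a n = true → φ a n = ψ a n) : ∀ (d off : ℕ) (t : Tr α),
    tall p d off t = true → ∀ r, tval φ d off t r = tval ψ d off t r
  | 0, off, .leaf a, ht, r => by simp only [tval, h a off ht]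
  | 0, _, .none, _, r => rfl
  | 0, _, .node _ _, ht, r => by simp [tall] at ht
  | d + 1, _, .none, _, r => rfl
  | d + 1, _, .leaf _, ht, r => by simp [tall] at ht
  | d + 1, off, .node l t, ht, r => by
    simp only [tall, Bool.and_eq_true] at ht
    simp only [tval, tval_congr h d off l ht.1, tval_congr h d _ t ht.2]

theorem tcomb_sum_le {α : Type} {h : α → List ℕ} {p : α → ℕ → Bool} {b : ℕ}
    (hb : ∀ a n, p a n = true → (h a).sum ≤ b) {d off : ℕ} {t : Tr α}
    (ht : tall p d off t = true) (r : List ℕ) : (tcomb h d t r).sum ≤ b * r.sum := by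
  have h1 := dot_tcomb h (fun _ => 1) d off t r
  simp only [dot_one] at h1
  have h2 := tval_le_dot (fun a _ => ((h a).sum : ℝ)) (fun _ => (b : ℝ)) p
    (fun _ => Nat.cast_nonneg b) (fun a n hp => by exact_mod_cast hb a n hp) d off t ht r
  rw [← h1, show (fun _ : ℕ => (b : ℝ)) = fun _ => (b : ℝ) * 1 from by simp, dot_const_mul,
    dot_one] at h2
  exact_mod_cast h2

/-- The checked weights are below the combined digits. -/
theorem bins_dot (C : Par) (c : ℕ) : ∀ (l : List (ℕ × ℕ)) (S : ℕ) (Z : List ℕ),
    binsOk C c l S (pack C.cw Z) = true → (∀ a ∈ Z, a < 2 ^ C.cw) → ∀ f : ℕ × ℕ → ℝ, (∀ x, 0 ≤ f x) →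
    ((withW C l S).map fun x => (c : ℝ) * ((x.2 : ℝ) * f x.1)).sum ≤
      dot Z fun i => f (l.getD i (0, 0))
  | [], S, Z, _, _, f, hf => by
    simp only [withW, List.map_nil, List.sum_nil]
    have : ∀ (Z : List ℕ) (F : ℕ → ℝ), (∀ i, 0 ≤ F i) → 0 ≤ dot Z F := by
      intro Z
      induction Z with
      | nil => intro F _; simp [dot]
      | cons a Z ih =>
        intro F hF
        exact add_nonneg (mul_nonneg (Nat.cast_nonneg a) (hF 0)) (ih _ fun i => hF _)
    exact this Z _ fun i => hf _
  | k :: l, S, Z, h, hZ, f, hf => by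
    simp only [binsOk, Bool.and_eq_true, Nat.ble_eq] at h
    have hs := pack_split C.cw 1 Z hZ
    rw [mul_one] at hs
    have hm : Nat.land (pack C.cw Z) (mask C.cw) = Z.headD 0 := by
      show Nat.land (pack C.cw Z) (Nat.shiftLeft 1 C.cw - 1) = _
      rw [Nat.shiftLeft_eq', Nat.one_shiftLeft]
      refine (Nat.and_two_pow_sub_one_eq_mod _ _).trans (hs.1.trans ?_)
      cases Z <;> simp [pack]
    have hd : Nat.shiftRight (pack C.cw Z) C.cw = pack C.cw Z.tail := by
      rw [Nat.shiftRight_eq', Nat.shiftRight_eq_div_pow, hs.2, List.drop_one]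
    rw [hm, hd] at h
    have ih := bins_dot C c l _ Z.tail h.2 (fun a ha => hZ a (List.mem_of_mem_tail ha)) f hf
    simp only [withW, List.map_cons, List.sum_cons]
    have hhead : (c : ℝ) * ((Nat.land S (mask C.sb) : ℕ) : ℝ) ≤ ((Z.headD 0 : ℕ) : ℝ) := by
      exact_mod_cast h.1
    cases Z with
    | nil =>
      simp only [dot, List.tail_nil, List.headD_nil, Nat.cast_zero] at ih hhead ⊢
      have := mul_le_mul_of_nonneg_right hhead (hf k)
      linarith
    | cons z Z =>
      simp only [dot, List.tail_cons, List.headD_cons, List.getD_cons_zero,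
        List.getD_cons_succ] at ih hhead ⊢
      have := mul_le_mul_of_nonneg_right hhead (hf k)
      linarith

end Vale.P154.Lat
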