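import Vale.Agent.P154.Lattice.Algebra
import Vale.Agent.P154.Lattice.Sparse

/-!
# The functional of a packed law on the lattice

Real vectors of lattice points, the functional `sval` of packed class weights and an edge weight,
and its invariance under the colours.
-/

noncomputable section

namespace Vale.P154.Lat

open Finset

/-- The ratio of a lattice. -/
def sig (C : Par) : ℝ := (C.p : ℝ) / C.q

/-- The vector of a point of level `m`. -/
def vec (C : Par) (m : ℕ) (A B : ℕ) : V3 :=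
  ![sig C ^ (2 * (A : ℤ) - B - m * C.K), sig C ^ (2 * (B : ℤ) - A - m * C.K),
    sig C ^ (2 * (m : ℤ) * C.K - A - B)]

/-- The vector at a position of the interior array. -/
def vdec (C : Par) (m i : ℕ) : V3 := vec C m (i / (8 * C.K + 1)) (i % (8 * C.K + 1))

/-- The vector at a position of the edge array. -/
def vP (C : Par) (m k : ℕ) : V3 := ![sig C ^ (3 * (k : ℤ) - 6 * m * C.K), 1, 0]

/-- The edge vector excluding colour `g`. -/
def eu (g : Fin 3) : V3 := fun i => if i = g then 0 else 1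

theorem sig_pos {C : Par} (hC : parOk C = true) : 0 < sig C := by
  simp only [parOk, Bool.and_eq_true, Nat.blt_eq] at hC
  obtain ⟨⟨⟨⟨hq, hp⟩, -⟩, -⟩, -⟩ := hC
  exact div_pos (Nat.cast_pos.2 (hq.trans hp)) (Nat.cast_pos.2 hq)

theorem vec_nonneg {C : Par} (hC : parOk C = true) (m A B : ℕ) (i : Fin 3) : 0 ≤ vec C m A B i := by
  have := sig_pos hC
  fin_cases i <;> simp [vec] <;> positivity

theorem vP_nonneg {C : Par} (hC : parOk C = true) (m k : ℕ) (i : Fin 3) : 0 ≤ vP C m k i := by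
  have := sig_pos hC
  fin_cases i <;> simp [vP] <;> positivity

theorem eu_nonneg (g i : Fin 3) : 0 ≤ eu g i := by unfold eu; split_ifs <;> norm_num

theorem vec_mul {C : Par} (hC : parOk C = true) (m n A B A' B' : ℕ) :
    (fun i => vec C m A B i * vec C n A' B' i) = vec C (m + n) (A + A') (B + B') := by
  have := (sig_pos hC).ne'
  funext i
  fin_cases i <;> simp [vec, ← zpow_add₀ this] <;> ring_nf

theorem vP_mul {C : Par} (hC : parOk C = true) (m n k j : ℕ) :
    (fun i => vP C m k i * vP C n j i) = vP C (m + n) (k + j) := by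
  have := (sig_pos hC).ne'
  funext i
  fin_cases i <;> simp [vP, ← zpow_add₀ this] <;> ring_nf

theorem vdec_mul {C : Par} (hC : parOk C = true) {m n i j : ℕ}
    (h : i % (8 * C.K + 1) + j % (8 * C.K + 1) < 8 * C.K + 1) :
    (fun k => vdec C m i k * vdec C n j k) = vdec C (m + n) (i + j) := by
  unfold vdec
  rw [vec_mul hC, Nat.add_mod_of_add_mod_lt (by omega), Nat.add_div (by omega), if_neg (by omega),
    add_zero]

/-- A scaled natural power. -/
theorem powN_real {C : Par} (hC : parOk C = true) (h e : ℕ) (he : e ≤ 2 * h) :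
    (powN C (2 * h) e : ℝ) = sig C ^ ((e : ℤ) - h) * ((C.p * C.q : ℕ) : ℝ) ^ h := by
  simp only [parOk, Bool.and_eq_true, Nat.blt_eq] at hC
  obtain ⟨⟨⟨⟨hq, hp⟩, -⟩, -⟩, -⟩ := hC
  have hp' : (C.p : ℝ) ≠ 0 := Nat.cast_ne_zero.2 (by omega)
  have hq' : (C.q : ℝ) ≠ 0 := Nat.cast_ne_zero.2 (by omega)
  unfold powN sig
  push_cast
  rw [← zpow_natCast (C.q : ℝ) (2 * h - e), Nat.cast_sub he, ← zpow_natCast (C.p : ℝ) e,
    ← zpow_natCast ((C.p : ℝ) * C.q) h, mul_zpow, div_zpow, zpow_sub₀ hp', zpow_sub₀ hq',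
    zpow_sub₀ hq']
  push_cast
  rw [show (C.q : ℝ) ^ (2 * (h : ℤ)) = (C.q : ℝ) ^ (h : ℤ) * (C.q : ℝ) ^ (h : ℤ) from by
    rw [two_mul, zpow_add₀ hq']]
  field_simp

theorem vec_powN {C : Par} (hC : parOk C = true) {m A B : ℕ} (hA : A ≤ 2 * m * C.K)
    (hB : B ≤ 2 * m * C.K) :
    (powN C (6 * m * C.K) (2 * A + 2 * m * C.K - B) : ℝ) =
        vec C m A B 0 * ((C.p * C.q : ℕ) : ℝ) ^ (3 * m * C.K) ∧
    (powN C (6 * m * C.K) (2 * B + 2 * m * C.K - A) : ℝ) =
        vec C m A B 1 * ((C.p * C.q : ℕ) : ℝ) ^ (3 * m * C.K) ∧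
    (powN C (6 * m * C.K) (5 * m * C.K - A - B) : ℝ) =
        vec C m A B 2 * ((C.p * C.q : ℕ) : ℝ) ^ (3 * m * C.K) := by
  have e : 6 * m * C.K = 2 * (3 * m * C.K) := by ring
  have h5 : (m : ℕ) * C.K * 4 ≤ 5 * m * C.K := by ring_nf; omega
  refine ⟨?_, ?_, ?_⟩ <;>
  · rw [e, powN_real hC _ _ (by ring_nf at hA hB h5 ⊢; omega)]
    simp only [vec, Matrix.cons_val_zero, Matrix.cons_val_one, Matrix.cons_val]
    congr 2
    repeat rw [Nat.cast_sub (by ring_nf at hA hB h5 ⊢; omega)]
    push_cast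
    ring

/-- The classes lie in the sector. -/
theorem class_mem {C : Par} (hC : parOk C = true) {c : ℕ × ℕ} (h : c ∈ C.classes) :
    C.K ≤ c.2 ∧ c.2 ≤ c.1 ∧ c.1 ≤ 2 * C.K := by
  simp only [parOk, Bool.and_eq_true, List.all_eq_true, Nat.ble_eq, Nat.blt_eq] at hC
  obtain ⟨⟨⟨-, h'⟩, -⟩, -⟩ := hC
  exact ⟨(h' c h).1.1, (h' c h).1.2, (h' c h).2⟩

theorem class_getD {C : Par} (hC : parOk C = true) {j : ℕ} (h : j < C.classes.length) :
    C.K ≤ (C.classes.getD j (0, 0)).2 ∧ (C.classes.getD j (0, 0)).2 ≤ (C.classes.getD j (0, 0)).1 ∧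
      (C.classes.getD j (0, 0)).1 ≤ 2 * C.K := by
  rw [List.getD_eq_getElem _ _ h]
  exact class_mem hC (List.getElem_mem h)

theorem images_bound {C : Par} {A B : ℕ} (h : C.K ≤ B ∧ B ≤ A ∧ A ≤ 2 * C.K) {y : ℕ × ℕ}
    (hy : y ∈ images C A B) : y.1 ≤ 2 * C.K ∧ y.2 ≤ 2 * C.K := by
  simp only [images, List.mem_cons, List.not_mem_nil, or_false] at hy
  rcases hy with rfl | rfl | rfl | rfl | rfl | rfl <;> constructor <;> simp only <;> omega

theorem vec_images {C : Par} {A B : ℕ} (h : C.K ≤ B ∧ B ≤ A ∧ A ≤ 2 * C.K) :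
    (images C A B).map (fun y => vec C 1 y.1 y.2) =
      let v := vec C 1 A B
      [![v 0, v 1, v 2], ![v 1, v 0, v 2], ![v 0, v 2, v 1], ![v 2, v 0, v 1], ![v 2, v 1, v 0],
        ![v 1, v 2, v 0]] := by
  obtain ⟨h1, h2, h3⟩ := h
  simp only [images, List.map_cons, List.map_nil, vec, Matrix.cons_val_zero, Matrix.cons_val_one,
    Matrix.cons_val]
  simp only [Nat.cast_sub (show B ≤ A + C.K by omega), Nat.cast_sub (show B ≤ 2 * C.K by omega),
    Nat.cast_sub (show A ≤ 2 * C.K by omega), Nat.cast_sub (show A ≤ B + C.K by omega)]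
  push_cast
  ring_nf

theorem sum_images {C : Par} {A B : ℕ} (h : C.K ≤ B ∧ B ≤ A ∧ A ≤ 2 * C.K) (F : V3 → ℝ) :
    ((images C A B).map fun y => F (vec C 1 y.1 y.2)).sum =
      ∑ π : Equiv.Perm (Fin 3), F fun i => vec C 1 A B (π i) := by
  have := congrArg (fun l => (l.map F).sum) (vec_images h)
  simp only [List.map_map, Function.comp_def] at this
  rw [this, sum_perms]
  simp only [List.map_cons, List.map_nil, List.sum_cons, List.sum_nil]
  ring

theorem sym_images {C : Par} {A B : ℕ} (h : C.K ≤ B ∧ B ≤ A ∧ A ≤ 2 * C.K) {F : V3 → ℝ}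
    (hF : Sym F) {g : ℕ} (hg : g < 6) :
    F (vec C 1 ((images C A B).getD g (0, 0)).1 ((images C A B).getD g (0, 0)).2) =
      F (vec C 1 A B) := by
  have hl : g < (images C A B).length := by simpa [images] using hg
  rw [List.getD_eq_getElem _ _ hl]
  have e : ∀ v : V3, ∀ a b c : Fin 3, ∀ π : Equiv.Perm (Fin 3), π 0 = a → π 1 = b → π 2 = c →
      F ![v a, v b, v c] = F v := by
    intro v a b c π ha hb hc
    rw [← hF π v]; congr 1; funext i; fin_cases i <;> simp [ha, hb, hc]
  have hm : vec C 1 (images C A B)[g].1 (images C A B)[g].2 ∈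
      (images C A B).map fun y => vec C 1 y.1 y.2 := List.mem_map_of_mem (List.getElem_mem hl)
  rw [vec_images h] at hm
  simp only [List.mem_cons, List.not_mem_nil, or_false] at hm
  rcases hm with hm | hm | hm | hm | hm | hm <;> rw [hm]
  · exact e _ 0 1 2 1 rfl rfl rfl
  · exact e _ 1 0 2 (Equiv.swap 0 1) (by decide) (by decide) (by decide)
  · exact e _ 0 2 1 (Equiv.swap 1 2) (by decide) (by decide) (by decide)
  · exact e _ 2 0 1 (Equiv.swap 1 2 * Equiv.swap 0 1) (by decide) (by decide) (by decide)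
  · exact e _ 2 1 0 (Equiv.swap 0 2) (by decide) (by decide) (by decide)
  · exact e _ 1 2 0 (Equiv.swap 0 1 * Equiv.swap 1 2) (by decide) (by decide) (by decide)

/-- The weighted points of a packed law. -/
def atoms (C : Par) (S : ℕ) : List ((ℕ × ℕ) × ℕ) :=
  (withW C C.classes S).flatMap fun x => (images C x.1.1 x.1.2).map fun y => (y, x.2)

theorem withW_mem {C : Par} : ∀ (l : List (ℕ × ℕ)) (S : ℕ), ∀ x ∈ withW C l S, x.1 ∈ l
  | [], _, x, h => by simp [withW] at h
  | c :: l, S, x, h => by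
    simp only [withW, List.mem_cons] at h
    rcases h with rfl | h
    · simp
    · exact List.mem_cons_of_mem _ (withW_mem l _ x h)

theorem atoms_bound {C : Par} (hC : parOk C = true) {S : ℕ} {x : (ℕ × ℕ) × ℕ}
    (hx : x ∈ atoms C S) : x.1.1 ≤ 2 * C.K ∧ x.1.2 ≤ 2 * C.K := by
  obtain ⟨z, hz, hx⟩ := List.mem_flatMap.1 hx
  obtain ⟨y, hy, rfl⟩ := List.mem_map.1 hx
  exact images_bound (class_mem hC (withW_mem _ _ _ hz)) hy

/-- The interior vectors with their weights. -/
def realA (C : Par) (S : ℕ) : List (ℝ × V3) :=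
  (atoms C S).map fun x => ((x.2 : ℝ) / 2 ^ C.P, vec C 1 x.1.1 x.1.2)

/-- The edge vector excluding `g` with its weight. -/
def realB (C : Par) (E : ℕ) (g : Fin 3) : List (ℝ × V3) := [((E : ℝ) / 2 ^ C.P, eu g)]

/-- The functional of a packed law. -/
def sval (C : Par) (S E : ℕ) : (V3 → ℝ) → ℝ :=
  lval (realA C S ++ realB C E 0 ++ realB C E 1 ++ realB C E 2)

theorem pos_realA {C : Par} (hC : parOk C = true) (S : ℕ) : Pos (realA C S) := by
  intro x hx
  obtain ⟨y, -, rfl⟩ := List.mem_map.1 hx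
  exact ⟨by positivity, vec_nonneg hC _ _ _⟩

theorem pos_realB (C : Par) (E : ℕ) (g : Fin 3) : Pos (realB C E g) := by
  intro x hx
  simp only [realB, List.mem_singleton] at hx
  subst hx
  exact ⟨by positivity, eu_nonneg g⟩

theorem lval_realA_gen (C : Par) (S : ℕ) (F : V3 → ℝ) : lval (realA C S) F =
    ((withW C C.classes S).map fun x => ((x.2 : ℝ) / 2 ^ C.P) *
      ((images C x.1.1 x.1.2).map fun y => F (vec C 1 y.1 y.2)).sum).sum := by
  unfold realA atoms lval
  induction withW C C.classes S with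
  | nil => simp
  | cons a l ih =>
    simp only [List.map_map, Function.comp_def] at ih
    simp only [List.flatMap_cons, List.map_append, List.sum_append, List.map_cons, List.sum_cons,
      List.map_map, Function.comp_def, ih]
    rw [← List.sum_map_mul_left]

theorem realA_perm {C : Par} (hC : parOk C = true) (S : ℕ) (F : V3 → ℝ)
    (π : Equiv.Perm (Fin 3)) :
    lval (realA C S) (fun v => F fun i => v (π i)) = lval (realA C S) F := by
  rw [lval_realA_gen, lval_realA_gen]
  refine congrArg List.sum (List.map_congr_left fun x hx => ?_)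
  congr 1
  have h := class_mem hC (withW_mem _ _ _ hx)
  rw [sum_images h (fun v => F fun i => v (π i)), sum_images h]
  exact Fintype.sum_equiv (Equiv.mulRight π) _ _ fun τ => by simp [Equiv.Perm.mul_apply]

theorem lval_realA_sym {C : Par} (hC : parOk C = true) (S : ℕ) {F : V3 → ℝ} (hF : Sym F) :
    lval (realA C S) F =
      6 / 2 ^ C.P * ((withW C C.classes S).map fun x => (x.2 : ℝ) * F (vec C 1 x.1.1 x.1.2)).sum := by
  rw [lval_realA_gen, ← List.sum_map_mul_left]
  refine congrArg List.sum (List.map_congr_left fun x hx => ?_)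
  rw [sum_images (class_mem hC (withW_mem _ _ _ hx))]
  simp only [hF _ _, Finset.sum_const, Finset.card_univ, Fintype.card_perm, Fintype.card_fin,
    Nat.factorial, nsmul_eq_mul]
  push_cast
  ring

theorem eu_perm (π : Equiv.Perm (Fin 3)) (g : Fin 3) : (fun i => eu g (π i)) = eu (π.symm g) := by
  funext i
  simp [eu, Equiv.eq_symm_apply]

theorem sym_eu {F : V3 → ℝ} (hF : Sym F) (g : Fin 3) : F (eu g) = F (eu 0) := by
  rw [← hF (Equiv.swap 0 g) (eu g), eu_perm]
  simp

theorem sval_perm {C : Par} (hC : parOk C = true) (S E : ℕ) (F : V3 → ℝ)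
    (π : Equiv.Perm (Fin 3)) : sval C S E (fun v => F fun i => v (π i)) = sval C S E F := by
  have h := Equiv.sum_comp π.symm fun g => F (eu g)
  simp only [Fin.sum_univ_three] at h
  simp only [sval, lval_append, realA_perm hC]
  simp only [lval, realB, List.map_cons, List.map_nil, List.sum_cons, List.sum_nil, eu_perm,
    add_zero]
  linear_combination ((E : ℝ) / 2 ^ C.P) * h

theorem sval_sym {C : Par} (hC : parOk C = true) (S E : ℕ) {F : V3 → ℝ} (hF : Sym F) :
    sval C S E F =
      6 / 2 ^ C.P * ((withW C C.classes S).map fun x => (x.2 : ℝ) * F (vec C 1 x.1.1 x.1.2)).sum +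
        3 * E / 2 ^ C.P * F (eu 0) := by
  simp only [sval, lval_append, lval_realA_sym hC S hF]
  simp only [lval, realB, List.map_cons, List.map_nil, List.sum_cons, List.sum_nil, add_zero,
    sym_eu hF 1, sym_eu hF 2]
  ring

theorem sval_finitary {C : Par} (hC : parOk C = true) (S E : ℕ) : Finitary (sval C S E) :=
  finitary_lval (pos_append (pos_append (pos_append (pos_realA hC S) (pos_realB C E 0))
    (pos_realB C E 1)) (pos_realB C E 2))

theorem sval_avg {C : Par} (hC : parOk C = true) (S E : ℕ) (F : V3 → ℝ) :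
    sval C S E F = sval C S E (avg F) :=
  sym_of_perm (sval_perm hC S E) F

end Vale.P154.Lat
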